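import Crest.Agent.N250.Re.Comm

/-!
# Row 250, tube calculus (helper80): abstract tube, shape operator, first and second derivatives
-/

set_option autoImplicit false
open MeasureTheory Set Filter Topology Function
open scoped ContDiff InnerProductSpace
open Crest.GeometryTopology.MCF

noncomputable section

namespace Crest.Agent.N250.Tb

/-- `pr` is a foot point and `sd` a signed distance to the slice `t` of `S` on the open set `W` -/
structure Tub (S : Mv) (t : ℝ) (W : Set E) (pr : E → E) (sd : E → ℝ) : Prop where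
  op : IsOpen W
  spr : ContDiffOn ℝ ∞ pr W
  ssd : ContDiffOn ℝ ∞ sd W
  mem : ∀ x ∈ W, (pr x, t) ∈ S.M
  dec : ∀ x ∈ W, x = pr x + sd x • S.n (pr x, t)

/-- tangential projection as a linear map -/
def PLc (S : Mv) (p : ST) : E →L[ℝ] E :=
  ContinuousLinearMap.id ℝ E - (innerSL ℝ (S.n p)).smulRight (S.n p)

theorem PLc_apply (S : Mv) (p : ST) (v : E) : PLc S p v = S.PL p v := rfl

/-- shape operator -/
def sh (S : Mv) (p : ST) : E →L[ℝ] E :=
  (S.td S.n p).comp ((ContinuousLinearMap.inl ℝ E ℝ).comp (PLc S p))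

theorem sh_apply (S : Mv) (p : ST) (v : E) : sh S p v = S.td S.n p (S.PL p v, 0) := rfl

section Sh

variable {S : Mv} {p : ST}

theorem inner_PL (S : Mv) (p : ST) (v w : E) : ⟪S.PL p v, w⟫_ℝ = ⟪v, S.PL p w⟫_ℝ := by
  simp only [Mv.PL, inner_sub_left, inner_sub_right, inner_smul_left, inner_smul_right,
    conj_trivial, real_inner_comm (S.n p) v]
  ring

theorem n_PL (hS : S.Reg) (hp : p ∈ S.M) (v : E) : ⟪S.n p, S.PL p v⟫_ℝ = 0 := by
  rw [Mv.PL, inner_sub_right, inner_smul_right, hS.inner_n hp]; ring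

theorem PL_n (hS : S.Reg) (hp : p ∈ S.M) : S.PL p (S.n p) = 0 := by
  rw [Mv.PL, hS.inner_n hp, one_smul, sub_self]

theorem norm_PL_sq (hS : S.Reg) (hp : p ∈ S.M) (v : E) :
    ‖S.PL p v‖ ^ 2 = ‖v‖ ^ 2 - ⟪S.n p, v⟫_ℝ ^ 2 := by
  rw [Mv.PL, norm_sub_sq_real, inner_smul_right, norm_smul, hS.norm_n hp, real_inner_comm,
    Real.norm_eq_abs, mul_one, sq_abs]
  ring

theorem norm_PL_le (hS : S.Reg) (hp : p ∈ S.M) (v : E) : ‖S.PL p v‖ ≤ ‖v‖ := by
  have := norm_PL_sq hS hp v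
  exact abs_le_of_sq_le_sq' (by nlinarith [sq_nonneg ⟪S.n p, v⟫_ℝ]) (norm_nonneg _) |>.2

theorem sh_coord (hS : S.Reg) (hp : p ∈ S.M) (v : E) (b : Fin 3) :
    sh S p v b = ∑ a, v a * S.A a b p := by
  rw [sh_apply, hS.td_n hp (hS.tg_PL hp v), Mv.td_PL]; rfl

theorem sh_ee (hS : S.Reg) (hp : p ∈ S.M) (a b : Fin 3) : sh S p (ee a) b = S.A a b p := by
  rw [sh_apply, hS.td_n hp (hS.tg_PL hp _)]; rfl

theorem n_sh (hS : S.Reg) (hp : p ∈ S.M) (v : E) : ⟪S.n p, sh S p v⟫_ℝ = 0 :=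
  hS.inner_td_n hp (hS.tg_PL hp v)

theorem sh_n (hS : S.Reg) (hp : p ∈ S.M) : sh S p (S.n p) = 0 := by
  rw [sh_apply, PL_n hS hp, Prod.mk_zero_zero, map_zero]

theorem sh_PL (hS : S.Reg) (hp : p ∈ S.M) (v : E) : sh S p (S.PL p v) = sh S p v := by
  rw [Mv.PL, map_sub, map_smul, sh_n hS hp, smul_zero, sub_zero]

theorem sh_symm (hS : S.Reg) (hp : p ∈ S.M) (v w : E) :
    ⟪sh S p v, w⟫_ℝ = ⟪v, sh S p w⟫_ℝ := by
  simp only [inner_eq_sum, sh_coord hS hp, Finset.sum_mul, Finset.mul_sum]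
  rw [Finset.sum_comm]
  exact Finset.sum_congr rfl fun a _ => Finset.sum_congr rfl fun b _ => by
    rw [hS.A_symm hp a b]; ring

theorem H_eq (hS : S.Reg) (hp : p ∈ S.M) : S.H p = ∑ a, sh S p (ee a) a := by
  simp only [sh_ee hS hp, Mv.H, Finset.sum_apply]

theorem A2_eq (hS : S.Reg) (hp : p ∈ S.M) : S.A2 p = ∑ a, sh S p (sh S p (ee a)) a := by
  simp only [sh_coord hS hp (sh S p _), sh_ee hS hp, Mv.A2, Finset.sum_apply, Pi.mul_apply]
  exact Finset.sum_congr rfl fun a _ => Finset.sum_congr rfl fun b _ => by rw [hS.A_symm hp b a]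

theorem A2_nonneg (S : Mv) (p : ST) : 0 ≤ S.A2 p := by
  simp only [Mv.A2, Finset.sum_apply, Pi.mul_apply]
  exact Finset.sum_nonneg fun a _ => Finset.sum_nonneg fun b _ => mul_self_nonneg _

theorem norm_sh_sq (hS : S.Reg) (hp : p ∈ S.M) (v : E) : ‖sh S p v‖ ^ 2 ≤ S.A2 p * ‖v‖ ^ 2 := by
  have e : S.A2 p = ∑ b, ∑ a, S.A a b p ^ 2 := by
    rw [Finset.sum_comm]
    simp only [Mv.A2, Finset.sum_apply, Pi.mul_apply, sq]
  rw [EuclideanSpace.real_norm_sq_eq, EuclideanSpace.real_norm_sq_eq, e, Finset.sum_mul]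
  refine Finset.sum_le_sum fun b _ => ?_
  rw [sh_coord hS hp, mul_comm]
  exact Finset.sum_mul_sq_le_sq_mul_sq _ _ _

theorem norm_sh_le (hS : S.Reg) (hp : p ∈ S.M) {κ : ℝ} (hκ : 0 ≤ κ) (hA : S.A2 p ≤ κ ^ 2)
    (v : E) : ‖sh S p v‖ ≤ κ * ‖v‖ :=
  (abs_le_of_sq_le_sq' ((norm_sh_sq hS hp v).trans (by
    rw [mul_pow]; gcongr)) (by positivity)).2

end Sh

namespace Tub

variable {S : Mv} {t : ℝ} {W : Set E} {pr : E → E} {sd : E → ℝ} {x : E}

theorem mono (h : Tub S t W pr sd) {W' : Set E} (h1 : IsOpen W') (h2 : W' ⊆ W) :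
    Tub S t W' pr sd :=
  ⟨h1, h.spr.mono h2, h.ssd.mono h2, fun x hx => h.mem x (h2 hx), fun x hx => h.dec x (h2 hx)⟩

variable (h : Tub S t W pr sd) (hS : S.Reg) (hx : x ∈ W)
include h hx

theorem pr_at : ContDiffAt ℝ ∞ pr x := h.spr.contDiffAt (h.op.mem_nhds hx)

theorem sd_at : ContDiffAt ℝ ∞ sd x := h.ssd.contDiffAt (h.op.mem_nhds hx)

theorem hasPr : HasFDerivAt pr (fderiv ℝ pr x) x :=
  ((h.pr_at hx).differentiableAt (by simp)).hasFDerivAt

theorem hasSd : HasFDerivAt sd (fderiv ℝ sd x) x :=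
  ((h.sd_at hx).differentiableAt (by simp)).hasFDerivAt

theorem hasPt : HasFDerivAt (fun y => ((pr y, t) : ST)) ((fderiv ℝ pr x).prod 0) x :=
  (h.hasPr hx).prodMk (hasFDerivAt_const t x)

theorem evM : ∀ᶠ y in 𝓝 x, ((pr y, t) : ST) ∈ S.M := (h.op.eventually_mem hx).mono h.mem

/-- chain rule for a function on `S` composed with the foot point -/
theorem hasF {G : Type} [NormedAddCommGroup G] [NormedSpace ℝ G] {f : ST → G}
    (hf : DifferentiableWithinAt ℝ f S.M (pr x, t)) :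
    HasFDerivAt (fun y => f (pr y, t)) ((S.td f (pr x, t)).comp ((fderiv ℝ pr x).prod 0)) x :=
  hf.hasFDerivWithinAt.comp_hasFDerivAt x (h.hasPt hx) (h.evM hx)

omit hx in
theorem sm_comp {G : Type} [NormedAddCommGroup G] [NormedSpace ℝ G] {f : ST → G} (hf : S.Sm f) :
    ContDiffOn ℝ ∞ (fun y => f (pr y, t)) W :=
  ContDiffOn.comp hf (h.spr.prodMk contDiffOn_const) h.mem

include hS

theorem dist_eq : ‖x - pr x‖ = |sd x| := by
  conv_lhs => rw [h.dec x hx]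
  rw [← h.dec x hx, sub_eq_iff_eq_add'.2 (h.dec x hx), norm_smul, hS.norm_n (h.mem x hx), mul_one,
    Real.norm_eq_abs]

/-- the derivative of the foot point is tangent -/
theorem n_Dpr (v : E) : ⟪S.n (pr x, t), fderiv ℝ pr x v⟫_ℝ = 0 := by
  obtain ⟨W0, φ, hW, k⟩ := hS _ (h.mem x hx)
  have h1 := (k.diffAt hW).hasFDerivAt.comp x (h.hasPt hx)
  have h2 : HasFDerivAt (φ ∘ fun y => ((pr y, t) : ST)) (0 : E →L[ℝ] ℝ) x := by
    refine (hasFDerivAt_const (0 : ℝ) x).congr_of_eventuallyEq ?_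
    filter_upwards [h.evM hx, (h.hasPt hx).continuousAt.eventually_mem (k.isOpen.mem_nhds hW)]
      with y a b using (k.mem _ b).1 a
  have h3 : fderiv ℝ φ (pr x, t) (fderiv ℝ pr x v, 0) = 0 :=
    congrArg (fun T : E →L[ℝ] ℝ => T v) (h1.unique h2)
  have := (k.tg_iff hW (h.mem x hx)).2 h3
  rwa [Mv.Tg, mul_zero] at this

theorem PL_Dpr (v : E) : S.PL (pr x, t) (fderiv ℝ pr x v) = fderiv ℝ pr x v :=
  Mv.PL_of_perp (h.n_Dpr hS hx v)

/-- derivative of the extended normal -/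
theorem hasNu : HasFDerivAt (fun y => S.n (pr y, t)) ((sh S (pr x, t)).comp (fderiv ℝ pr x)) x := by
  refine (h.hasF hx (hS.sm_n.diffW (h.mem x hx))).congr_fderiv (ContinuousLinearMap.ext fun v => ?_)
  symm
  rw [ContinuousLinearMap.comp_apply, sh_apply, h.PL_Dpr hS hx]; rfl

theorem split (v : E) : v = fderiv ℝ pr x v +
    (sd x • sh S (pr x, t) (fderiv ℝ pr x v) + fderiv ℝ sd x v • S.n (pr x, t)) := by
  have h1 := (h.hasPr hx).add ((h.hasSd hx).smul (h.hasNu hS hx))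
  have h2 := (hasFDerivAt_id x).unique
    (h1.congr_of_eventuallyEq ((h.op.eventually_mem hx).mono h.dec))
  exact congrArg (fun T : E →L[ℝ] E => T v) h2

/-- `∇ sd = n ∘ pr` -/
theorem grad (v : E) : fderiv ℝ sd x v = ⟪S.n (pr x, t), v⟫_ℝ := by
  conv_rhs => rw [h.split hS hx v]
  rw [inner_add_right, inner_add_right, inner_smul_right, inner_smul_right, h.n_Dpr hS hx,
    n_sh hS (h.mem x hx), hS.inner_n (h.mem x hx)]
  ring

theorem fderiv_sd : fderiv ℝ sd x = innerSL ℝ (S.n (pr x, t)) := by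
  ext1 v; exact h.grad hS hx v

/-- `(I + sd A) D pr = P` -/
theorem Dpr_eq (v : E) :
    fderiv ℝ pr x v + sd x • sh S (pr x, t) (fderiv ℝ pr x v) = S.PL (pr x, t) v := by
  rw [Mv.PL, eq_sub_iff_add_eq, ← h.grad hS hx, add_assoc, ← h.split hS hx]

theorem norm_Dpr {κ : ℝ} (hκ : 0 ≤ κ) (hA : S.A2 (pr x, t) ≤ κ ^ 2) (hd : |sd x| * κ ≤ 1 / 2)
    (v : E) : ‖fderiv ℝ pr x v‖ ≤ 2 * ‖S.PL (pr x, t) v‖ := by
  have h1 := eq_sub_of_add_eq (h.Dpr_eq hS hx v)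
  have h2 := norm_sh_le hS (h.mem x hx) hκ hA (fderiv ℝ pr x v)
  have h3 : ‖fderiv ℝ pr x v‖ ≤ ‖S.PL (pr x, t) v‖ + |sd x| * (κ * ‖fderiv ℝ pr x v‖) := by
    conv_lhs => rw [h1]
    refine (norm_sub_le _ _).trans ?_
    rw [norm_smul, Real.norm_eq_abs]
    gcongr
  nlinarith [norm_nonneg (fderiv ℝ pr x v)]

/-- `I + sd A` is injective -/
theorem inj {v : E} (hv : v + sd x • sh S (pr x, t) v = 0) : v = 0 := by
  have hp := h.mem x hx
  have h1 : ⟪S.n (pr x, t), v⟫_ℝ = 0 := by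
    have := congrArg (fun w => ⟪S.n (pr x, t), w⟫_ℝ) hv
    simpa only [inner_add_right, inner_smul_right, n_sh hS hp, mul_zero, add_zero,
      inner_zero_right] using this
  have h2 := congrArg (fun w => ⟪v, w⟫_ℝ) (h.Dpr_eq hS hx v)
  have h3 := congrArg (fun w => ⟪w, fderiv ℝ pr x v⟫_ℝ) hv
  simp only [inner_add_right, inner_add_left, inner_smul_right, inner_smul_left, conj_trivial,
    inner_zero_left, sh_symm hS hp, Mv.PL_of_perp h1] at h2 h3
  exact inner_self_eq_zero.1 (h2.symm.trans h3)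

theorem Dpr_n : fderiv ℝ pr x (S.n (pr x, t)) = 0 :=
  h.inj hS hx (by rw [h.Dpr_eq hS hx, PL_n hS (h.mem x hx)])

theorem Dpr_PL (v : E) : fderiv ℝ pr x (S.PL (pr x, t) v) = fderiv ℝ pr x v := by
  rw [Mv.PL, map_sub, map_smul, h.Dpr_n hS hx, smul_zero, sub_zero]

/-- `D pr` is symmetric -/
theorem Dpr_symm (v w : E) : ⟪fderiv ℝ pr x v, w⟫_ℝ = ⟪v, fderiv ℝ pr x w⟫_ℝ := by
  have hp := h.mem x hx
  have e : ∀ v w, ⟪fderiv ℝ pr x v, w⟫_ℝ = ⟪fderiv ℝ pr x v, fderiv ℝ pr x w⟫_ℝ +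
      sd x * ⟪fderiv ℝ pr x v, sh S (pr x, t) (fderiv ℝ pr x w)⟫_ℝ := fun v w => by
    rw [← inner_smul_right, ← inner_add_right, h.Dpr_eq hS hx, ← inner_PL, h.PL_Dpr hS hx]
  rw [e v w, real_inner_comm _ v, e w v, real_inner_comm, ← sh_symm hS hp,
    real_inner_comm (sh S _ _)]

end Tub

end Crest.Agent.N250.Tb

end
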