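import Crest.Agent.N250.FV.Ch
import Crest.Agent.R211.Area

/-!
# Row 250, tube calculus (helper80): area formula for injective maps defined on a slice
-/

set_option autoImplicit false
open MeasureTheory Set Filter Topology Function
open scoped ContDiff InnerProductSpace ENNReal
open Crest.GeometryTopology.MCF

noncomputable section

namespace Crest.Agent.N250.Tb

open FV R211

theorem jac_eq_gram (J : FV.E2 →L[ℝ] E) : R241.AF.jac J = gramArea (J (e2 0)) (J (e2 1)) := by
  rw [← normDet_lin2, R241.AF.jac]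
  congr 1
  ext1 z
  have : z = z 0 • e2 0 + z 1 • e2 1 := by
    ext i; fin_cases i <;> simp [e2]
  rw [lin2_apply, ← map_smul, ← map_smul, ← map_add, ← this]; rfl

/-- `Jc` is the tangential Jacobian of `T` on the plane orthogonal to `n` -/
def IsJac (n : E) (T : E →L[ℝ] E) (Jc : ℝ) : Prop :=
  ∀ a b, ⟪n, a⟫_ℝ = 0 → ⟪n, b⟫_ℝ = 0 → gramArea (T a) (T b) = Jc * gramArea a b

variable {N : Mv} {s : ℝ} {A : Set E} {f : E → E} {f' : E → E →L[ℝ] E} {Jc : E → ℝ}

theorem area_ch {X : FV.E2 × ℝ → E} {U : Set (FV.E2 × ℝ)} {W : Set ST} {L : E →L[ℝ] FV.E2}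
    (h : Ch N X U W L) (hN : N.Reg) (hA : MeasurableSet A) (hs : A ⊆ N.sl s)
    (hW : ∀ x ∈ A, (x, s) ∈ W) (hf : ∀ x ∈ A, HasFDerivWithinAt f (f' x) (N.sl s) x)
    (hi : InjOn f A) (hJ : ∀ x ∈ A, IsJac (N.n (x, s)) (f' x) (Jc x)) (g : E → ℝ≥0∞) :
    ∫⁻ y in f '' A, g y ∂(μHE[2] : Measure E) =
      ∫⁻ x in A, ENNReal.ofReal (Jc x) * g (f x) ∂N.mu s := by
  set Z : Set FV.E2 := {z | (z, s) ∈ U} ∩ (fun z => X (z, s)) ⁻¹' A with hZ
  have hc : ContinuousOn (fun z => X (z, s)) {z | (z, s) ∈ U} := fun z hz =>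
    (h.hasXt s z hz).continuousWithinAt
  have mZ : MeasurableSet Z := by
    have := (continuousOn_iff_continuous_domRestrict.1 hc).measurable hA
    have := (MeasurableEmbedding.subtype_coe (h.oUt s).measurableSet).measurableSet_image.2 this
    convert this using 1
    ext z
    simp [hZ, and_comm]
  have im : (fun z => X (z, s)) '' Z = A := by
    rw [hZ, image_inter_preimage, h.image_eq]
    exact inter_eq_right.2 fun x hx => ⟨hs hx, hW x hx⟩
  have d1 : ∀ z ∈ Z, HasFDerivWithinAt (fun z => X (z, s)) (Jz X (z, s)) Z z := fun z hz =>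
    (h.hasXt s z hz.1).mono inter_subset_left
  have d2 : ∀ z ∈ Z, HasFDerivWithinAt (f ∘ fun z => X (z, s))
      ((f' (X (z, s))).comp (Jz X (z, s))) Z z := fun z hz =>
    (hf _ hz.2).comp z (d1 z hz) fun y hy => hs hy.2
  have i1 : InjOn (fun z => X (z, s)) Z := (h.injXt s).mono inter_subset_left
  have i2 : InjOn (f ∘ fun z => X (z, s)) Z := hi.comp i1 fun y hy => hy.2
  have e1 := R241.AF.lintegral_image_eq mZ d2 i2 g
  have e2 := R241.AF.lintegral_image_eq mZ d1 i1 fun x => ENNReal.ofReal (Jc x) * g (f x)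
  rw [finrank_euclideanSpace_fin] at e1 e2
  rw [image_comp, im] at e1
  rw [im] at e2
  rw [e1, Mv.mu, Measure.restrict_restrict hA, inter_eq_left.2 hs, e2]
  refine setLIntegral_congr_fun mZ fun z hz => ?_
  simp only [comp_apply]
  rw [← mul_assoc, ← ENNReal.ofReal_mul (R241.AF.jac_nonneg _), jac_eq_gram, jac_eq_gram,
    mul_comm (gramArea _ _)]
  congr 2
  exact hJ _ hz.2 _ _ (h.n_Jz hN hz.1 _) (h.n_Jz hN hz.1 _)

theorem meas_image (hA : MeasurableSet A) (hs : A ⊆ N.sl s)
    (hf : ∀ x ∈ A, HasFDerivWithinAt f (f' x) (N.sl s) x) (hi : InjOn f A) :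
    MeasurableSet (f '' A) :=
  hA.image_of_continuousOn_injOn (fun x hx => (hf x hx).continuousWithinAt.mono hs) hi

/-- area formula, lower integrals -/
theorem area_map (hN : N.Reg) (hA : MeasurableSet A) (hs : A ⊆ N.sl s)
    (hf : ∀ x ∈ A, HasFDerivWithinAt f (f' x) (N.sl s) x)
    (hi : InjOn f A) (hJ : ∀ x ∈ A, IsJac (N.n (x, s)) (f' x) (Jc x)) (g : E → ℝ≥0∞) :
    ∫⁻ y in f '' A, g y ∂(μHE[2] : Measure E) =
      ∫⁻ x in A, ENNReal.ofReal (Jc x) * g (f x) ∂N.mu s := by
  rcases A.eq_empty_or_nonempty with rfl | hne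
  · simp
  have : Nonempty A := hne.to_subtype
  choose X U W L h1 h2 using fun x : A => exists_ch hN (hs x.2)
  obtain ⟨T, hT, hc⟩ := TopologicalSpace.isOpen_iUnion_countable
    (fun x : A => {y | (y, s) ∈ W x}) fun x => (h2 x).oWt s
  have hTn : T.Nonempty := by
    obtain ⟨x, hx⟩ := hne
    have : x ∈ ⋃ i ∈ T, {y | (y, s) ∈ W i} := hc ▸ mem_iUnion.2 ⟨⟨x, hx⟩, h1 _⟩
    obtain ⟨i, hi, -⟩ := mem_iUnion₂.1 this
    exact ⟨i, hi⟩
  obtain ⟨u, rfl⟩ := hT.exists_eq_range hTn
  rw [biUnion_range] at hc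
  set O : ℕ → Set E := fun i => {y | (y, s) ∈ W (u i)} with hO
  have mO : ∀ i, MeasurableSet (A ∩ disjointed O i) := fun i =>
    hA.inter (MeasurableSet.disjointed (fun i => ((h2 (u i)).oWt s).measurableSet) i)
  have cov : A = ⋃ i, A ∩ disjointed O i := by
    rw [← inter_iUnion, iUnion_disjointed, hc]
    exact (inter_eq_left.2 fun x hx => mem_iUnion.2 ⟨⟨x, hx⟩, h1 _⟩).symm
  have dis : Pairwise (Disjoint on fun i => A ∩ disjointed O i) := fun i j hij =>
    (disjoint_disjointed O hij).mono inter_subset_right inter_subset_right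
  have dis' : Pairwise (Disjoint on fun i => f '' (A ∩ disjointed O i)) := fun i j hij =>
    (dis hij).image hi inter_subset_left inter_subset_left
  conv_lhs => rw [cov, image_iUnion]
  conv_rhs => rw [cov]
  rw [lintegral_iUnion (fun i => meas_image (mO i) (inter_subset_left.trans hs)
    (fun x hx => hf x hx.1) (hi.mono inter_subset_left)) dis', lintegral_iUnion mO dis]
  exact tsum_congr fun i => area_ch (h2 (u i)) hN (mO i) (inter_subset_left.trans hs)
    (fun x hx => disjointed_subset O i hx.2) (fun x hx => hf x hx.1)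
    (hi.mono inter_subset_left) (fun x hx => hJ x hx.1) g

theorem emb_map (hA : MeasurableSet A) (hs : A ⊆ N.sl s)
    (hf : ∀ x ∈ A, HasFDerivWithinAt f (f' x) (N.sl s) x) (hi : InjOn f A) :
    MeasurableEmbedding (A.domRestrict f) :=
  ContinuousOn.measurableEmbedding hA (fun x hx => (hf x hx).continuousWithinAt.mono hs) hi

theorem map_eq (hN : N.Reg) (hA : MeasurableSet A) (hs : A ⊆ N.sl s)
    (hf : ∀ x ∈ A, HasFDerivWithinAt f (f' x) (N.sl s) x)
    (hi : InjOn f A) (hJ : ∀ x ∈ A, IsJac (N.n (x, s)) (f' x) (Jc x)) :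
    Measure.map (A.domRestrict f)
      (Measure.comap (↑) ((N.mu s).withDensity fun x => ENNReal.ofReal (Jc x))) =
      (μHE[2] : Measure E).restrict (f '' A) := by
  have he := emb_map hA hs hf hi
  ext T hT
  have e : (Subtype.val '' (A.domRestrict f ⁻¹' T)) = A ∩ f ⁻¹' T := by
    ext x; simp [and_comm]
  have m : MeasurableSet (A ∩ f ⁻¹' T) :=
    e ▸ (MeasurableEmbedding.subtype_coe hA).measurableSet_image.2 (he.measurable hT)
  have := area_map hN m (inter_subset_left.trans hs) (fun x hx => hf x hx.1)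
    (hi.mono inter_subset_left) (fun x hx => hJ x hx.1) fun _ => 1
  rw [he.map_apply, (MeasurableEmbedding.subtype_coe hA).comap_apply, e, withDensity_apply _ m,
    Measure.restrict_apply hT, inter_comm T, ← image_inter_preimage]
  simpa using this.symm

/-- area formula, Bochner integrals -/
theorem area_int (hN : N.Reg) (hA : MeasurableSet A) (hs : A ⊆ N.sl s)
    (hf : ∀ x ∈ A, HasFDerivWithinAt f (f' x) (N.sl s) x)
    (hi : InjOn f A) (hJ : ∀ x ∈ A, IsJac (N.n (x, s)) (f' x) (Jc x)) (h0 : ∀ x ∈ A, 0 ≤ Jc x)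
    (hm : AEMeasurable Jc ((N.mu s).restrict A)) (g : E → ℝ) :
    ∫ y in f '' A, g y ∂(μHE[2] : Measure E) = ∫ x in A, Jc x * g (f x) ∂N.mu s := by
  rw [← map_eq hN hA hs hf hi hJ, (emb_map hA hs hf hi).integral_map]
  simp only [Set.domRestrict_apply, ENNReal.ofReal]
  rw [← (MeasurableEmbedding.subtype_coe hA).integral_map (g := fun z => g (f z)),
    map_comap_subtype_coe hA, setIntegral_withDensity_eq_setIntegral_smul₀ hm.real_toNNReal _ hA]
  refine setIntegral_congr_fun hA fun z hz => ?_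
  simp only [NNReal.smul_def, Real.coe_toNNReal _ (h0 z hz), smul_eq_mul]

theorem area_intg (hN : N.Reg) (hA : MeasurableSet A) (hs : A ⊆ N.sl s)
    (hf : ∀ x ∈ A, HasFDerivWithinAt f (f' x) (N.sl s) x)
    (hi : InjOn f A) (hJ : ∀ x ∈ A, IsJac (N.n (x, s)) (f' x) (Jc x)) (h0 : ∀ x ∈ A, 0 ≤ Jc x)
    (hm : AEMeasurable Jc ((N.mu s).restrict A)) (g : E → ℝ) :
    IntegrableOn g (f '' A) (μHE[2] : Measure E) ↔
      IntegrableOn (fun x => Jc x * g (f x)) A (N.mu s) := by
  rw [IntegrableOn, ← map_eq hN hA hs hf hi hJ, (emb_map hA hs hf hi).integrable_map_iff]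
  simp only [Set.domRestrict_eq, ← Function.comp_assoc, ENNReal.ofReal]
  rw [← (MeasurableEmbedding.subtype_coe hA).integrable_map_iff, map_comap_subtype_coe hA,
    restrict_withDensity hA, integrable_withDensity_iff_integrable_coe_smul₀ hm.real_toNNReal]
  refine integrableOn_congr_fun (fun z hz => ?_) hA
  simp only [Real.coe_toNNReal _ (h0 z hz), smul_eq_mul, Function.comp_apply]

end Crest.Agent.N250.Tb

end
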