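import Crest.Agent.N250.Tb.P
import Crest.Agent.N250.Tb.J0

/-!
# Row 250, tube calculus (helper80): change of variables along the foot point map (leaf J)
-/

set_option autoImplicit false
open MeasureTheory Set Filter Topology Function
open scoped ContDiff InnerProductSpace ENNReal
open Crest.GeometryTopology.MCF

noncomputable section

namespace Crest.Agent.N250.Tb

open R211

/-- `det (I + d A) = 1 + d H + d² K` at the foot point -/
def dt (S : Mv) (t : ℝ) (pr : E → E) (sd : E → ℝ) (x : E) : ℝ :=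
  1 + sd x * S.H (pr x, t) + sd x ^ 2 * S.K (pr x, t)

/-- the Jacobian of the foot point map restricted to `N` -/
def Jac (S : Mv) (t : ℝ) (pr : E → E) (sd : E → ℝ) (N : Mv) (q : ST) : ℝ :=
  |cs S t pr N q| / |dt S t pr sd q.1|

theorem det3_map (T : E →L[ℝ] E) (a b c : E) :
    det3 (T a) (T b) (T c) = det3 (T (ee 0)) (T (ee 1)) (T (ee 2)) * det3 a b c := by
  have e : ∀ (v : E) i, T v i = v 0 * T (ee 0) i + v 1 * T (ee 1) i + v 2 * T (ee 2) i :=
    fun v i => by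
      conv_lhs => rw [eq_sum_ee v]
      simp [Fin.sum_univ_three]
  simp only [det3, e a, e b, e c]
  ring

theorem det3_perp {n a b : E} (hn : ‖n‖ = 1) (ha : ⟪n, a⟫_ℝ = 0) (hb : ⟪n, b⟫_ℝ = 0) (c : E) :
    det3 a b c = ⟪n, c⟫_ℝ * det3 a b n := by
  have := det3_eq_zero_of_perp hn (real_inner_comm a n ▸ ha) (real_inner_comm b n ▸ hb)
    (inner_proj hn c)
  rw [proj_apply, real_inner_comm] at this
  simp only [det3, PiLp.sub_apply, PiLp.smul_apply, smul_eq_mul] at this ⊢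
  linear_combination this

theorem det3_sub (a b n : E) (r s : ℝ) : det3 (a - r • n) (b - s • n) n = det3 a b n := by
  simp only [det3, PiLp.sub_apply, PiLp.smul_apply, smul_eq_mul]; ring

section Det

variable {S : Mv} {p : ST}

theorem det_sh (hS : S.Reg) (hp : p ∈ S.M) :
    det3 (sh S p (ee 0)) (sh S p (ee 1)) (sh S p (ee 2)) = 0 :=
  det3_eq_zero_of_perp (hS.norm_n hp) ((real_inner_comm _ _).trans (n_sh hS hp _))
    ((real_inner_comm _ _).trans (n_sh hS hp _)) ((real_inner_comm _ _).trans (n_sh hS hp _))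

theorem det_one_add (hS : S.Reg) (hp : p ∈ S.M) (d : ℝ) :
    det3 (ee 0 + d • sh S p (ee 0)) (ee 1 + d • sh S p (ee 1)) (ee 2 + d • sh S p (ee 2)) =
      1 + d * S.H p + d ^ 2 * S.K p := by
  have h0 := det_sh hS hp
  simp only [det3, sh_ee hS hp] at h0
  simp only [det3, PiLp.add_apply, PiLp.smul_apply, smul_eq_mul, sh_ee hS hp, Mv.K, Mv.H_apply,
    Mv.A2_apply, Fin.sum_univ_three]
  rw [hS.A_symm hp 1 0, hS.A_symm hp 2 0, hS.A_symm hp 2 1] at *
  simp [ee]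
  linear_combination d ^ 3 * h0

/-- area distortion of `I + d A` on the tangent plane -/
theorem det3_one_add (hS : S.Reg) (hp : p ∈ S.M) (d : ℝ) (a b : E) :
    det3 (a + d • sh S p a) (b + d • sh S p b) (S.n p) =
      (1 + d * S.H p + d ^ 2 * S.K p) * det3 a b (S.n p) := by
  have := det3_map (ContinuousLinearMap.id ℝ E + d • sh S p) a b (S.n p)
  simp only [add_apply, ContinuousLinearMap.id_apply,
    smul_apply, sh_n hS hp, smul_zero, add_zero] at this
  rw [this, det_one_add hS hp]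

theorem exists_det3_ne {n : E} (hn : ‖n‖ = 1) : ∃ a b, det3 a b n ≠ 0 := by
  by_contra h
  push Not at h
  have h0 := h (ee 1) (ee 2)
  have h1 := h (ee 2) (ee 0)
  have h2 := h (ee 0) (ee 1)
  have := norm_sq_E3 n
  simp [det3, ee] at h0 h1 h2
  rw [hn, h0, h1, h2] at this
  norm_num at this

theorem H_sq_le (hS : S.Reg) (hp : p ∈ S.M) : S.H p ^ 2 ≤ 2 * S.A2 p := by
  have h0 := hS.nn hp
  have h1 := hS.A_n hp 0
  have h2 := hS.A_n hp 1
  have h3 := hS.A_n hp 2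
  have := Finset.sum_mul_sq_le_sq_mul_sq (Finset.univ : Finset (Fin 3 × Fin 3))
    (fun i => S.A i.1 i.2 p) fun i => (if i.1 = i.2 then 1 else 0) - S.nu i.1 p * S.nu i.2 p
  simp only [Fintype.sum_prod_type, Fin.sum_univ_three] at this h0 h1 h2 h3
  simp only [Mv.H_apply, Mv.A2_apply, Fin.sum_univ_three]
  norm_num [Fin.ext_iff] at this
  refine le_of_eq_of_le ?_ (this.trans_eq ?_)
  · congr 1
    linear_combination S.nu 0 p * h1 + S.nu 1 p * h2 + S.nu 2 p * h3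
  · symm
    linear_combination (S.A 0 0 p ^ 2 + S.A 0 1 p ^ 2 + S.A 0 2 p ^ 2 + (S.A 1 0 p ^ 2 +
      S.A 1 1 p ^ 2 + S.A 1 2 p ^ 2) + (S.A 2 0 p ^ 2 + S.A 2 1 p ^ 2 + S.A 2 2 p ^ 2)) *
      (1 - (S.nu 0 p * S.nu 0 p + S.nu 1 p * S.nu 1 p + S.nu 2 p * S.nu 2 p)) * h0

theorem abs_K_le (hS : S.Reg) (hp : p ∈ S.M) : |S.K p| ≤ S.A2 p / 2 := by
  have := H_sq_le hS hp
  rw [Mv.K, abs_le]
  constructor <;> nlinarith [sq_nonneg (S.H p)]

end Det

namespace Tub

variable {S N : Mv} {t s : ℝ} {W A : Set E} {pr : E → E} {sd : E → ℝ} {x : E} {p : ST}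

variable (h : Tub S t W pr sd) (hS : S.Reg)
include h hS

theorem dt_mul (hx : x ∈ W) (a b : E) :
    dt S t pr sd x * det3 (fderiv ℝ pr x a) (fderiv ℝ pr x b) (S.n (pr x, t)) =
      det3 a b (S.n (pr x, t)) := by
  rw [dt, ← det3_one_add hS (h.mem x hx), h.Dpr_eq hS hx, h.Dpr_eq hS hx, Mv.PL, Mv.PL, det3_sub]

theorem dt_ne (hx : x ∈ W) : dt S t pr sd x ≠ 0 := fun h0 => by
  obtain ⟨a, b, hab⟩ := exists_det3_ne (hS.norm_n (h.mem x hx))
  exact hab (by rw [← h.dt_mul hS hx, h0, zero_mul])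

omit h hS in
theorem dt_ge {κ : ℝ} (hκ : 0 ≤ κ) (hA : S.A2 (pr x, t) ≤ κ ^ 2) (hd : |sd x| * κ ≤ 1 / 2) :
    3 / 8 ≤ dt S t pr sd x := by
  have h1 : sd x ^ 2 * S.A2 (pr x, t) ≤ (|sd x| * κ) ^ 2 := by
    rw [mul_pow, sq_abs]; gcongr
  have h2 : (|sd x| * κ) ^ 2 ≤ (1 / 2) ^ 2 := by gcongr
  rw [dt, Mv.K]
  nlinarith [sq_nonneg (1 + sd x * S.H (pr x, t))]

theorem isJac (hN : N.Reg) (hp : p ∈ N.M) (hW : p.1 ∈ W) :
    IsJac (N.n p) (fderiv ℝ pr p.1) (Jac S t pr sd N p) := fun a b ha hb => by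
  have hy := h.mem _ hW
  rw [gramArea_perp (hS.norm_n hy) ((real_inner_comm _ _).trans (h.n_Dpr hS hW a))
      ((real_inner_comm _ _).trans (h.n_Dpr hS hW b)),
    gramArea_perp (hN.norm_n hp) ((real_inner_comm _ _).trans ha)
      ((real_inner_comm _ _).trans hb), Jac,
    div_mul_eq_mul_div, eq_div_iff (abs_ne_zero.2 (h.dt_ne hS hW)), ← abs_mul, ← abs_mul,
    mul_comm, h.dt_mul hS hW, det3_perp (hN.norm_n hp) ha hb]
  rfl

theorem sm_dt : ContDiffOn ℝ ∞ (dt S t pr sd) W := by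
  have h1 := h.sm_comp hS.sm_H
  exact (contDiffOn_const.add (h.ssd.mul h1)).add
    ((h.ssd.pow 2).mul (((h1.pow 2).sub (h.sm_comp hS.sm_A2)).div_const 2))

theorem cont_cs (hN : N.Reg) (s : ℝ) :
    ContinuousOn (fun x => cs S t pr N (x, s)) (N.sl s ∩ W) :=
  ((hN.sm_n.continuousOn.comp (Continuous.prodMk_left s).continuousOn fun _ hx => hx).mono
    inter_subset_left).inner ((h.sm_comp hS.sm_n).continuousOn.mono inter_subset_right)

theorem cont_Jac (hN : N.Reg) (s : ℝ) :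
    ContinuousOn (fun x => Jac S t pr sd N (x, s)) (N.sl s ∩ W) :=
  (h.cont_cs hS hN s).abs.div ((h.sm_dt hS).continuousOn.mono inter_subset_right).abs
    fun _ hx => abs_ne_zero.2 (h.dt_ne hS hx.2)

omit h hS in
theorem Jac_nonneg (q : ST) : 0 ≤ Jac S t pr sd N q := div_nonneg (abs_nonneg _) (abs_nonneg _)

variable (hN : N.Reg) (hA : MeasurableSet A) (hs : A ⊆ N.sl s ∩ W) (hi : InjOn pr A)
include hA hs hi

omit hS in
theorem meas_im : MeasurableSet (pr '' A) :=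
  hA.image_of_continuousOn_injOn (h.spr.continuousOn.mono fun _ hx => (hs hx).2) hi

omit hS in
theorem mu_im : (S.mu t).restrict (pr '' A) = (μHE[2] : Measure E).restrict (pr '' A) := by
  rw [Mv.mu, Measure.restrict_restrict (h.meas_im hA hs hi), inter_eq_left.2]
  rintro _ ⟨x, hx, rfl⟩
  exact h.mem x (hs hx).2

include hN

/-- leaf J, lower integrals -/
theorem lint_J (g : E → ℝ≥0∞) : ∫⁻ y in pr '' A, g y ∂S.mu t =
    ∫⁻ x in A, ENNReal.ofReal (Jac S t pr sd N (x, s)) * g (pr x) ∂N.mu s := by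
  rw [h.mu_im hA hs hi]
  exact area_map hN hA (fun _ hx => (hs hx).1)
    (fun x hx => (h.hasPr (hs hx).2).hasFDerivWithinAt) hi
    (fun x hx => h.isJac hS hN (p := (x, s)) (hs hx).1 (hs hx).2) g

/-- leaf J, Bochner integrals -/
theorem int_J (g : E → ℝ) : ∫ y in pr '' A, g y ∂S.mu t =
    ∫ x in A, Jac S t pr sd N (x, s) * g (pr x) ∂N.mu s := by
  rw [h.mu_im hA hs hi]
  exact area_int hN hA (fun _ hx => (hs hx).1)
    (fun x hx => (h.hasPr (hs hx).2).hasFDerivWithinAt) hi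
    (fun x hx => h.isJac hS hN (p := (x, s)) (hs hx).1 (hs hx).2) (fun _ _ => Jac_nonneg _)
    (((h.cont_Jac hS hN s).mono hs).aemeasurable hA) g

theorem intg_J (g : E → ℝ) : IntegrableOn g (pr '' A) (S.mu t) ↔
    IntegrableOn (fun x => Jac S t pr sd N (x, s) * g (pr x)) A (N.mu s) := by
  rw [IntegrableOn, h.mu_im hA hs hi]
  exact area_intg hN hA (fun _ hx => (hs hx).1)
    (fun x hx => (h.hasPr (hs hx).2).hasFDerivWithinAt) hi
    (fun x hx => h.isJac hS hN (p := (x, s)) (hs hx).1 (hs hx).2) (fun _ _ => Jac_nonneg _)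
    (((h.cont_Jac hS hN s).mono hs).aemeasurable hA) g

end Tub

end Crest.Agent.N250.Tb

end
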