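import Crest.Agent.N250.Tb.T2

/-!
# Row 250, tube (helper50), GR: a surface with reach close to a model is almost parallel to it
-/

set_option autoImplicit false
open MeasureTheory Set Filter Topology Function
open scoped ContDiff InnerProductSpace
open Crest.GeometryTopology.MCF

noncomputable section

namespace Crest.Agent.N250.Tb

variable {S N : Mv} {t t' ρ s δ d d' : ℝ} {x x' y z v : E} {U V : Set E}

/-- Taylor expansion of the signed distance along a ray from a point of the slice -/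
theorem sd_line (hN : N.Reg) (hU : IsOpen U) (hR : ∀ y ∈ N.sl t, y ∈ U → N.Reach (y, t) ρ)
    (hC : ∀ y ∈ closure (N.sl t), y ∈ U → y ∈ N.sl t) (hy : y ∈ N.sl t) (h0 : 0 < s) (h1 : s < ρ)
    (hB : Metric.closedBall y (2 * s) ⊆ U) (hv : ‖v‖ ≤ 1) :
    y + s • v ∈ tube N t U ρ ∧
      |sd N t (y + s • v) - s * ⟪N.n (y, t), v⟫_ℝ| ≤ 2 * s ^ 2 / ρ := by
  have hρ := h0.trans h1
  have hT := tub hN hR hU
  have hd : ∀ τ, 0 ≤ τ → dist (y + τ • v) y ≤ τ := fun τ h => by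
    rw [dist_eq_norm, add_sub_cancel_left, norm_smul, Real.norm_of_nonneg h]
    exact mul_le_of_le_one_right h hv
  have hm : ∀ τ, 0 ≤ τ → τ ≤ s → y + τ • v ∈ tube N t U ρ := fun τ a b =>
    mem_tube hN hC hy (((hd τ a).trans b).trans_lt h1)
      ((Metric.closedBall_subset_closedBall' (by linarith [hd τ a])).trans hB)
  have hg : ∀ τ, 0 ≤ τ → τ ≤ s → HasDerivAt (fun τ : ℝ => sd N t (y + τ • v))
      ⟪N.n (pr N t (y + τ • v), t), v⟫_ℝ τ := fun τ a b => by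
    have l : HasDerivAt (fun τ : ℝ => y + τ • v) v τ := by
      simpa using ((hasDerivAt_id τ).smul_const v).const_add y
    rw [← hT.grad hN (hm τ a b)]
    exact HasFDerivAt.comp_hasDerivAt τ (hT.hasSd (hm τ a b)) l
  have hb : ∀ τ, 0 < τ → τ ≤ s → |(⟪N.n (pr N t (y + τ • v), t), v⟫_ℝ * τ -
      sd N t (y + τ • v) * 1) / τ ^ 2| ≤ 2 / ρ := fun τ a b => by
    have m := hm τ a.le b
    have pm := pr_mem hN hR m
    have f := fed (hN.norm_n (p := (_, t)) pm) hρ (pr_reach hN hR m) hy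
    have e : ⟪N.n (pr N t (y + τ • v), t), y - pr N t (y + τ • v)⟫_ℝ =
        -(⟪N.n (pr N t (y + τ • v), t), v⟫_ℝ * τ - sd N t (y + τ • v) * 1) := by
      rw [sd, add_sub_right_comm, inner_add_right, inner_smul_right]; ring
    have g1 : ‖y - pr N t (y + τ • v)‖ ≤ 2 * τ := by
      rw [← dist_eq_norm]
      have := dist_triangle_left y (pr N t (y + τ • v)) (y + τ • v)
      rw [dist_pr hN hR m] at this
      linarith [hd τ a.le, abs_sd_le hN hR m hy]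
    rw [e, abs_neg] at f
    rw [abs_div, abs_of_pos (pow_pos a 2), div_le_div_iff₀ (pow_pos a 2) hρ]
    nlinarith [pow_le_pow_left₀ (norm_nonneg _) g1 2]
  have hself := mem_tube_self hN hR hρ hy (hB (Metric.mem_closedBall_self (by linarith)))
  have l0 : Tendsto (fun τ : ℝ => sd N t (y + τ • v) / τ) (𝓝[>] 0) (𝓝 ⟪N.n (y, t), v⟫_ℝ) := by
    have := (hasDerivAt_iff_tendsto_slope.1 (hg 0 le_rfl h0.le)).mono_left (nhdsGT_le_nhdsNE 0)
    simp only [zero_smul, add_zero, hself.2.1] at this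
    refine this.congr fun τ => ?_
    simp [slope_def_field, hself.2.2]
  have key : |sd N t (y + s • v) / s - ⟪N.n (y, t), v⟫_ℝ| ≤ 2 / ρ * s := by
    refine le_of_tendsto ((l0.const_sub _).abs) ?_
    filter_upwards [Ioo_mem_nhdsGT h0] with ε hε
    have := norm_image_sub_le_of_norm_deriv_le_segment' (f := fun τ : ℝ => sd N t (y + τ • v) / τ)
      (a := ε) (b := s) (C := 2 / ρ)
      (fun τ hτ => ((hg τ (hε.1.le.trans hτ.1) hτ.2).fun_div (hasDerivAt_id' τ)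
        (hε.1.trans_le hτ.1).ne').hasDerivWithinAt)
      (fun τ hτ => hb τ (hε.1.trans_le hτ.1) hτ.2.le) s (right_mem_Icc.2 hε.2.le)
    exact this.trans (mul_le_mul_of_nonneg_left (by linarith [hε.1]) (by positivity))
  refine ⟨hm s h0.le le_rfl, ?_⟩
  rw [div_sub' h0.ne', abs_div, abs_of_pos h0, div_le_iff₀ h0] at key
  exact key.trans_eq (by ring)

/-- the slice follows its tangent directions to second order -/
theorem tan_near (hN : N.Reg) (hU : IsOpen U) (hR : ∀ y ∈ N.sl t, y ∈ U → N.Reach (y, t) ρ)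
    (hC : ∀ y ∈ closure (N.sl t), y ∈ U → y ∈ N.sl t) (hy : y ∈ N.sl t) (h0 : 0 < s) (h1 : s < ρ)
    (hB : Metric.closedBall y (2 * s) ⊆ U) (hv : ‖v‖ ≤ 1) (hn : ⟪N.n (y, t), v⟫_ℝ = 0) :
    y + s • v ∈ tube N t U ρ ∧ |sd N t (y + s • v)| ≤ 2 * s ^ 2 / ρ := by
  simpa only [hn, mul_zero, sub_zero] using sd_line hN hU hR hC hy h0 h1 hB hv

/-- Taylor expansion of the signed distance at a point of the slice -/
theorem sd_taylor (hN : N.Reg) (hU : IsOpen U) (hR : ∀ y ∈ N.sl t, y ∈ U → N.Reach (y, t) ρ)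
    (hC : ∀ y ∈ closure (N.sl t), y ∈ U → y ∈ N.sl t) (hy : y ∈ N.sl t) (h0 : ‖x - y‖ ≤ s)
    (h1 : s < ρ) (hB : Metric.closedBall y (2 * s) ⊆ U) :
    x ∈ tube N t U ρ ∧ |sd N t x - ⟪N.n (y, t), x - y⟫_ℝ| ≤ 2 * s ^ 2 / ρ := by
  have hs := (norm_nonneg _).trans h0
  have hρ := hs.trans_lt h1
  rcases hs.eq_or_lt with hs | hs
  · obtain rfl : x = y := sub_eq_zero.1 (norm_le_zero_iff.1 (h0.trans_eq hs.symm))
    have := mem_tube_self hN hR hρ hy (hB (Metric.mem_closedBall_self (by linarith)))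
    exact ⟨this.1, by simp only [this.2.2, sub_self, inner_zero_right, abs_zero]; positivity⟩
  have := sd_line hN hU hR hC hy hs h1 hB (v := s⁻¹ • (x - y)) (by
    rw [norm_smul, norm_inv, Real.norm_of_nonneg hs.le]; exact inv_mul_le_one_of_le₀ h0 hs.le)
  rwa [smul_inv_smul₀ hs.ne', inner_smul_right, mul_inv_cancel_left₀ hs.ne',
    add_sub_cancel] at this

/-- GR, sharp form: the tangential part of the normal of the model -/
theorem gr_core (hS : S.Reg) (hN : N.Reg) (hU : IsOpen U)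
    (hR : ∀ y ∈ N.sl t', y ∈ U → N.Reach (y, t') ρ)
    (hC : ∀ y ∈ closure (N.sl t'), y ∈ U → y ∈ N.sl t') (hx : x ∈ N.sl t') (h0 : 0 < s)
    (h1 : s < ρ) (hB : Metric.closedBall x (2 * s) ⊆ U) (hδ : δ ≤ ρ / 2)
    (hcl : ∀ w ∈ N.sl t', w ∈ Metric.closedBall x (2 * s) → ∃ z ∈ S.sl t, dist w z ≤ δ)
    (hy : y ∈ S.sl t) (hyR : S.Reach (y, t) ρ) (hd : |d| ≤ δ) (e : x = y + d • S.n (y, t)) :
    ‖N.PL (x, t') (S.n (y, t))‖ * s ≤ 2 * δ + 3 * (s ^ 2 / ρ) := by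
  have hρ := h0.trans h1
  have hν := hS.norm_n (p := (y, t)) hy
  have hq : s ^ 2 / ρ * ρ = s ^ 2 := div_mul_cancel₀ _ hρ.ne'
  have hq0 : 0 ≤ s ^ 2 / ρ := by positivity
  have hd' := abs_le.1 hd
  set ν := S.n (y, t)
  set w := N.PL (x, t') ν with hw
  rcases (norm_nonneg w).eq_or_lt with ha | ha
  · rw [← ha]; linarith
  have ha1 : ‖w‖ ≤ 1 := (norm_PL_le hN hx ν).trans_eq hν
  have hv : ‖‖w‖⁻¹ • w‖ = 1 := norm_smul_inv_norm (norm_pos_iff.1 ha)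
  have hn : ⟪N.n (x, t'), ‖w‖⁻¹ • w⟫_ℝ = 0 := by rw [inner_smul_right, n_PL hN hx, mul_zero]
  have hνv : ⟪ν, ‖w‖⁻¹ • w⟫_ℝ = ‖w‖ := by
    have : ⟪ν, w⟫_ℝ = ‖w‖ ^ 2 := by
      rw [norm_PL_sq hN hx, hw, Mv.PL, inner_sub_right, inner_smul_right,
        real_inner_self_eq_norm_sq, real_inner_comm, sq, sq]
    rw [inner_smul_right, this]; field_simp
  obtain ⟨m, k⟩ := tan_near hN hU hR hC hx h0 h1 hB hv.le hn
  generalize ‖w‖⁻¹ • w = v at hv hn hνv m k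
  have g0 : dist (x + s • v) x = s := by
    rw [dist_eq_norm, add_sub_cancel_left, norm_smul, hv, mul_one, Real.norm_of_nonneg h0.le]
  have g1 := dist_pr hN hR m
  have g2 := abs_sd_le hN hR m hx
  obtain ⟨z, hz, g3⟩ := hcl _ (pr_mem hN hR m) (by
    rw [Metric.mem_closedBall]
    linarith [dist_triangle_left (pr N t' (x + s • v)) x (x + s • v)])
  have g4 : ρ ≤ dist z (y + ρ • ν) := (hyR z hz).1
  have g5 : dist (x + s • v) (y + ρ • ν) ≤ ρ - d - s * ‖w‖ + s ^ 2 / ρ := by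
    have e1 : dist (x + s • v) (y + ρ • ν) = ‖s • v - (ρ - d) • ν‖ := by
      rw [dist_eq_norm, e, sub_smul]; congr 1; abel
    have p : 0 ≤ ρ - d - s * ‖w‖ + s ^ 2 / ρ := by
      have : s * ‖w‖ ≤ s := mul_le_of_le_one_right h0.le ha1
      have p2 : 0 ≤ (ρ / 2 - s + s ^ 2 / ρ) * ρ := by nlinarith [sq_nonneg (ρ - s), sq_nonneg s]
      linarith [nonneg_of_mul_nonneg_left p2 hρ]
    rw [e1]
    refine (pow_le_pow_iff_left₀ (norm_nonneg _) p two_ne_zero).1 ?_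
    rw [norm_sub_smul_sq _ _ hν, inner_smul_right, hνv, norm_smul, hv, mul_one, Real.norm_eq_abs,
      sq_abs]
    nlinarith [sq_nonneg (s * ‖w‖ - s ^ 2 / ρ), mul_nonneg hq0 (by linarith : 0 ≤ ρ / 2 - d)]
  have g6 := dist_triangle4 z (pr N t' (x + s • v)) (x + s • v) (y + ρ • ν)
  rw [dist_comm (pr N t' (x + s • v)) (x + s • v), dist_comm z (pr N t' _)] at g6
  rw [mul_div_assoc] at k
  linarith

/-- GR: `1 - ⟨n, ν⟩² ≤ 25 δ / ρ` -/
theorem gr (hS : S.Reg) (hN : N.Reg) (hU : IsOpen U)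
    (hR : ∀ y ∈ N.sl t', y ∈ U → N.Reach (y, t') ρ)
    (hC : ∀ y ∈ closure (N.sl t'), y ∈ U → y ∈ N.sl t') (hx : x ∈ N.sl t') (h0 : 0 < δ)
    (hδ : δ ≤ ρ / 2) (hB : Metric.closedBall x (2 * √(δ * ρ)) ⊆ U)
    (hcl : ∀ w ∈ N.sl t', w ∈ Metric.closedBall x (2 * √(δ * ρ)) → ∃ z ∈ S.sl t, dist w z ≤ δ)
    (hy : y ∈ S.sl t) (hyR : S.Reach (y, t) ρ) (hd : |d| ≤ δ) (e : x = y + d • S.n (y, t)) :
    1 - ⟪N.n (x, t'), S.n (y, t)⟫_ℝ ^ 2 ≤ 25 * δ / ρ := by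
  have hρ : 0 < ρ := by linarith
  have hp := mul_pos h0 hρ
  have hs := Real.sq_sqrt hp.le
  have h := gr_core hS hN hU hR hC hx (Real.sqrt_pos.2 hp)
    ((Real.sqrt_lt' hρ).2 (by nlinarith)) hB hδ hcl hy hyR hd e
  rw [hs, mul_div_cancel_right₀ _ hρ.ne'] at h
  have h2 := pow_le_pow_left₀ (by positivity) h 2
  rw [mul_pow, hs, norm_PL_sq hN hx, hS.norm_n (p := (y, t)) hy, one_pow] at h2
  rw [le_div_iff₀ hρ]
  exact le_of_mul_le_mul_left (by nlinarith) h0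

/-- two points of `N` on one short transversal segment coincide -/
theorem eq_of_line (hN : N.Reg) (hx : x ∈ N.sl t') (hx' : x' ∈ N.sl t') (hρ : 0 < ρ)
    (hR : N.Reach (x, t') ρ) (hv : ‖v‖ = 1) (e : x = y + d • v) (e' : x' = y + d' • v)
    (hd : |d| ≤ δ) (hd' : |d'| ≤ δ) (h : δ < ρ * |⟪N.n (x, t'), v⟫_ℝ|) : x = x' := by
  have f := fed (hN.norm_n (p := (x, t')) hx) hρ hR hx'
  have e1 : x' - x = (d' - d) • v := by rw [sub_smul]; nth_rw 1 [e, e']; abel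
  rw [e1, inner_smul_right, abs_mul, norm_smul, hv, mul_one, Real.norm_eq_abs] at f
  have f2 := abs_sub d' d
  have f3 : |d' - d| ≤ 0 := by
    by_contra f3
    nlinarith [mul_pos (not_le.1 f3) (sub_pos.2 h), mul_pos (not_le.1 f3) (not_le.1 f3)]
  rw [abs_nonpos_iff.1 f3, zero_smul] at e1
  exact (sub_eq_zero.1 e1).symm

/-- GR for the tube: `N ∩ U` lies in the tube of `S` at distance at most `δ ≤ ρ / 100` -/
theorem gr_tube (hS : S.Reg) (hRS : ∀ y ∈ S.sl t, y ∈ V → S.Reach (y, t) ρ) (hN : N.Reg)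
    (hU : IsOpen U) (hR : ∀ y ∈ N.sl t', y ∈ U → N.Reach (y, t') ρ)
    (hC : ∀ y ∈ closure (N.sl t'), y ∈ U → y ∈ N.sl t') (h0 : 0 < δ) (hδ : δ ≤ ρ / 100)
    (hT : ∀ w ∈ N.sl t', w ∈ U → w ∈ tube S t V ρ ∧ |sd S t w| ≤ δ) :
    (∀ x ∈ N.sl t', Metric.closedBall x (2 * √(δ * ρ)) ⊆ U →
      1 - ⟪N.n (x, t'), S.n (pr S t x, t)⟫_ℝ ^ 2 ≤ 25 * δ / ρ) ∧
    InjOn (pr S t) {x | x ∈ N.sl t' ∧ Metric.closedBall x (2 * √(δ * ρ)) ⊆ U} := by
  have hρ : 0 < ρ := by linarith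
  have hm : ∀ x, Metric.closedBall x (2 * √(δ * ρ)) ⊆ U → x ∈ U := fun x h =>
    h (Metric.mem_closedBall_self (by positivity))
  have A : ∀ x ∈ N.sl t', Metric.closedBall x (2 * √(δ * ρ)) ⊆ U →
      1 - ⟪N.n (x, t'), S.n (pr S t x, t)⟫_ℝ ^ 2 ≤ 25 * δ / ρ := fun x hx hB =>
    have k := hT x hx (hm x hB)
    gr hS hN hU hR hC hx h0 (by linarith) hB (fun w a b => ⟨_, pr_mem hS hRS (hT w a (hB b)).1,
      (dist_pr hS hRS (hT w a (hB b)).1).trans_le (hT w a (hB b)).2⟩) (pr_mem hS hRS k.1)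
      (pr_reach hS hRS k.1) k.2 (dec hS hRS k.1)
  refine ⟨A, fun x hx x' hx' e => ?_⟩
  have k := hT x hx.1 (hm x hx.2)
  have k' := hT x' hx'.1 (hm x' hx'.2)
  have d' := dec hS hRS k'.1
  rw [← e] at d'
  refine eq_of_line hN hx.1 hx'.1 hρ (hR x hx.1 (hm x hx.2))
    (hS.norm_n (p := (_, t)) (pr_mem hS hRS k.1)) (dec hS hRS k.1) d' k.2 k'.2 ?_
  have a1 := A x hx.1 hx.2
  have a2 : 25 * δ / ρ ≤ 1 / 4 := by rw [div_le_iff₀ hρ]; linarith
  have a3 : 1 / 2 ≤ |⟪N.n (x, t'), S.n (pr S t x, t)⟫_ℝ| :=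
    (pow_le_pow_iff_left₀ (by norm_num) (abs_nonneg _) two_ne_zero).1 (by rw [sq_abs]; linarith)
  nlinarith

end Crest.Agent.N250.Tb

end
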