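import Crest.Agent.N250.Tb.Pair
import Crest.Agent.N250.R.Stm
import Crest.Agent.N250.Sg.Cut
import Crest.Agent.N250.Sg.Sup
import Crest.Agent.N250.T.Reach

/-!
# Row 250, tube calculus (helper80): the multipliers are bounded by the height (leaf DUAL)
-/

set_option autoImplicit false
open MeasureTheory Set Filter Topology Function Metric
open scoped ContDiff InnerProductSpace
open Crest.GeometryTopology.MCF

noncomputable section

namespace Crest.Agent.N250.Tb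

open Sg R

theorem am {a c T l : ℝ} (hl : 0 < l) (hc : 0 ≤ c) (hT : 0 ≤ T) (h : a ^ 2 ≤ c ^ 2 * T) :
    |a| ≤ c * ((l + T / l) / 2) := by
  refine abs_le_of_sq_le_sq (h.trans ?_) (by positivity)
  rw [mul_pow]
  gcongr
  have : l * (T / l) = T := mul_div_cancel₀ _ hl.ne'
  nlinarith [sq_nonneg (l - T / l)]

theorem gau_le_one (x : E) : gau 0 1 x ≤ 1 := by
  have h1 : Real.exp (-‖x - 0‖ ^ 2 / (4 * 1)) ≤ 1 :=
    Real.exp_le_one_iff.2 (div_nonpos_of_nonpos_of_nonneg (by simp) (by norm_num))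
  have h2 : (4 * Real.pi * 1)⁻¹ ≤ 1 := inv_le_one_of_one_le₀ (by linarith [Real.pi_gt_three])
  exact mul_le_one₀ h2 (Real.exp_pos _).le h1

theorem int_of_lint {μ : Measure E} {u : E → ℝ} {B : ℝ} (hB : 0 ≤ B)
    (hm : AEStronglyMeasurable u μ) (h0 : 0 ≤ᵐ[μ] u)
    (h : ∫⁻ x, ENNReal.ofReal (u x) ∂μ ≤ ENNReal.ofReal B) : Integrable u μ ∧ ∫ x, u x ∂μ ≤ B := by
  refine ⟨⟨hm, (hasFiniteIntegral_iff_ofReal h0).2 (h.trans_lt ENNReal.ofReal_lt_top)⟩, ?_⟩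
  rw [integral_eq_lintegral_of_nonneg_ae h0 hm]
  exact ENNReal.toReal_le_of_le_ofReal hB h

/-- points where a combination of independent functions has a sign -/
theorem exists_pts {T : Set E} {n : ℕ} {h : Fin n → E → ℝ} (hc : ∀ i, ContinuousOn (h i) T)
    (hi : ∀ c : Fin n → ℝ, (∀ x ∈ T, ∑ i, c i * h i x = 0) → c = 0) :
    ∃ k r R : ℝ, 0 < k ∧ 0 < r ∧ 0 ≤ R ∧ ∀ c : Fin n → ℝ, c ≠ 0 → ∃ y ∈ T, ‖y‖ ≤ R ∧
      ∃ σ : ℝ, |σ| = 1 ∧ ∀ z ∈ T, dist z y < r → k * ‖c‖ ≤ σ * ∑ i, c i * h i z := by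
  have key : ∃ k r R : ℝ, 0 < k ∧ 0 < r ∧ 0 ≤ R ∧ ∀ c ∈ sphere (0 : Fin n → ℝ) 1, ∃ y ∈ T,
      ‖y‖ ≤ R ∧ ∃ σ : ℝ, |σ| = 1 ∧ ∀ z ∈ T, dist z y < r → k ≤ σ * ∑ i, c i * h i z := by
    refine (isCompact_sphere (0 : Fin n → ℝ) 1).induction_on
      (p := fun B => ∃ k r R : ℝ, 0 < k ∧ 0 < r ∧ 0 ≤ R ∧ ∀ c ∈ B, ∃ y ∈ T,
        ‖y‖ ≤ R ∧ ∃ σ : ℝ, |σ| = 1 ∧ ∀ z ∈ T, dist z y < r → k ≤ σ * ∑ i, c i * h i z)
      ⟨1, 1, 0, one_pos, one_pos, le_rfl, fun _ h => h.elim⟩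
      (fun s t hst ⟨k, r, R, a, b, d, e⟩ => ⟨k, r, R, a, b, d, fun c hc => e c (hst hc)⟩) ?_ ?_
    · rintro s t ⟨k, r, R, a, b, d, e⟩ ⟨k', r', R', a', b', d', e'⟩
      refine ⟨min k k', min r r', max R R', lt_min a a', lt_min b b', le_max_of_le_left d, ?_⟩
      rintro c (hc | hc)
      · obtain ⟨y, h1, h2, σ, h3, h4⟩ := e c hc
        exact ⟨y, h1, le_max_of_le_left h2, σ, h3, fun z hz hd =>
          (min_le_left _ _).trans (h4 z hz (hd.trans_le (min_le_left _ _)))⟩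
      · obtain ⟨y, h1, h2, σ, h3, h4⟩ := e' c hc
        exact ⟨y, h1, le_max_of_le_right h2, σ, h3, fun z hz hd =>
          (min_le_right _ _).trans (h4 z hz (hd.trans_le (min_le_right _ _)))⟩
    · intro c hc0
      have hc1 : c ≠ 0 := by rintro rfl; simp at hc0
      obtain ⟨y, hy, hy0⟩ : ∃ y ∈ T, ∑ i, c i * h i y ≠ 0 := by
        by_contra hh
        push Not at hh
        exact hc1 (hi c hh)
      obtain ⟨σ, s1, s2⟩ : ∃ σ : ℝ, |σ| = 1 ∧ 0 < σ * ∑ i, c i * h i y := by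
        rcases hy0.lt_or_gt with h0 | h0
        · exact ⟨-1, by simp, by linarith⟩
        · exact ⟨1, by simp, by linarith⟩
      have h1 : ContinuousWithinAt (fun q : (Fin n → ℝ) × E => σ * ∑ i, q.1 i * h i q.2)
          (univ ×ˢ T) (c, y) :=
        continuousWithinAt_const.mul (tendsto_finsetSum _ fun i _ =>
          ((continuous_apply i).comp continuous_fst).continuousWithinAt.mul
            (ContinuousWithinAt.comp (g := h i) (f := Prod.snd) (x := (c, y)) (hc i y hy)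
              continuous_snd.continuousWithinAt fun _ hq => hq.2))
      obtain ⟨ε, hε, h2⟩ := Metric.mem_nhdsWithin_iff.1
        (h1.eventually (lt_mem_nhds (half_lt_self s2)))
      refine ⟨ball c ε, nhdsWithin_le_nhds (ball_mem_nhds c hε), _, ε, ‖y‖, half_pos s2, hε,
        norm_nonneg _, fun c' hc' => ⟨y, hy, le_rfl, σ, s1, fun z hz hd => le_of_lt ?_⟩⟩
      exact h2 (show (c', z) ∈ _ from ⟨by rw [← ball_prod_same]; exact ⟨hc', hd⟩, trivial, hz⟩)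
  obtain ⟨k, r, R, a, b, d, e⟩ := key
  refine ⟨k, r, R, a, b, d, fun c hc => ?_⟩
  have hn : 0 < ‖c‖ := norm_pos_iff.2 hc
  obtain ⟨y, h1, h2, σ, h3, h4⟩ := e (‖c‖⁻¹ • c) (by simp [norm_smul, hn.ne'])
  refine ⟨y, h1, h2, σ, h3, fun z hz hd => ?_⟩
  have := mul_le_mul_of_nonneg_right (h4 z hz hd) hn.le
  refine this.trans_eq ?_
  simp only [Pi.smul_apply, smul_eq_mul, mul_assoc, ← Finset.mul_sum]
  field_simp

/-- `fv` is stable under `C²` perturbation -/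
theorem fv_close {G S : Mv} {x y : E} {f : E → ℝ} {M κ δ : ℝ} (hG : G.Reg) (hx : x ∈ G.sl 0)
    (hf : C2 f M) (hκ : 0 ≤ κ) (hA : G.A2 (x, 0) ≤ κ ^ 2) (hδ : δ ≤ 1) (h1 : dist x y < δ)
    (h2 : ‖G.n (x, 0) - S.n (y, 0)‖ < δ) (h3 : ∀ a b, |G.A a b (x, 0) - S.A a b (y, 0)| < δ) :
    |G.fv f (x, 0) - S.fv f (y, 0)| ≤ M * (5 + 4 * κ) * δ := by
  have hM := hf.nonneg
  rw [dist_eq_norm] at h1
  have h0 := norm_nonneg (x - y)
  have a1 := hf.l1 y (x - y)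
  have a2 := hf.b2 y (x - y)
  rw [add_sub_cancel] at a1 a2
  have a3 : |⟪gradient f x - gradient f y, G.n (x, 0)⟫_ℝ| ≤ M * δ := by
    refine (abs_real_inner_le_norm _ _).trans ?_
    rw [hG.norm_n (p := (x, 0)) hx, mul_one]
    exact a1.trans (by gcongr)
  have a4 : |⟪gradient f y, G.n (x, 0) - S.n (y, 0)⟫_ℝ| ≤ M * δ :=
    (abs_real_inner_le_norm _ _).trans (mul_le_mul (hf.b1 y) h2.le (norm_nonneg _) hM)
  have a5 : |f x - f y| ≤ 2 * M * δ := by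
    have b1 : |⟪gradient f y, x - y⟫_ℝ| ≤ M * δ :=
      (abs_real_inner_le_norm _ _).trans (mul_le_mul (hf.b1 y) h1.le h0 hM)
    have b2 : M * ‖x - y‖ ^ 2 ≤ M * δ := by gcongr; nlinarith
    have := abs_le.1 b1
    have := abs_le.1 (a2.trans b2)
    rw [abs_le]; constructor <;> linarith
  have a6 : |G.H (x, 0) * (f x - f y)| ≤ 2 * κ * (2 * M * δ) := by
    rw [abs_mul]
    exact mul_le_mul (abs_H_le hG (p := (x, 0)) hx hκ hA) a5 (abs_nonneg _) (by positivity)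
  have a7 : |(G.H (x, 0) - S.H (y, 0)) * f y| ≤ 3 * δ * M := by
    rw [abs_mul]
    refine mul_le_mul ?_ (hf.b0 y) (abs_nonneg _) (by linarith)
    simp only [Mv.H_apply, Fin.sum_univ_three]
    have := abs_lt.1 (h3 0 0)
    have := abs_lt.1 (h3 1 1)
    have := abs_lt.1 (h3 2 2)
    rw [abs_le]; constructor <;> linarith
  rw [inner_sub_left] at a3
  rw [inner_sub_right] at a4
  have := abs_le.1 a3
  have := abs_le.1 a4
  have := abs_le.1 a6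
  have := abs_le.1 a7
  simp only [Mv.fv]
  rw [abs_le]; constructor <;> nlinarith

section Ctx

variable {N G : Mv} {Λ m ρ₀ ρ₁ r δ : ℝ} {x : E}

theorem _root_.Crest.Agent.N250.R.Ctx.hR (h : Ctx N Λ G m ρ₀) :
    ∀ y ∈ G.sl 0, y ∈ ball (0 : E) m → G.Reach (y, 0) ρ₀ :=
  fun y hy hb => h.greach y hy (mem_ball_zero_iff.1 hb)

theorem _root_.Crest.Agent.N250.R.Ctx.tub (h : Ctx N Λ G m ρ₀) :
    Tub G 0 (tube G 0 (ball 0 m) ρ₀) (pr G 0) (sd G 0) := Tb.tub h.greg h.hR isOpen_ball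

theorem _root_.Crest.Agent.N250.R.Ctx.A2_le (h : Ctx N Λ G m ρ₀) (h0 : 0 < ρ₀)
    (hx : x ∈ tube G 0 (ball 0 m) ρ₀) : G.A2 (pr G 0 x, 0) ≤ (2 / ρ₀) ^ 2 := by
  refine (reachAS_holds G h.greg _ (h.tub.mem x hx) ρ₀ h0 (pr_reach h.greg h.hR hx)).2.trans ?_
  rw [div_pow]; gcongr; norm_num

theorem _root_.Crest.Agent.N250.R.Ctx.cl (h : Ctx N Λ G m ρ₀) : IsClosed (N.sl 0) :=
  h.closed.preimage (Continuous.prodMk_left 0)

/-- the cut off height is smooth on the whole of `N` -/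
theorem sm_cut_ht (h : Ctx N Λ G m ρ₀) (hr : Nr N G m ρ₀ r ρ₁ δ) {s : ℝ} (h1 : 1 ≤ s)
    (hs : s < r) : N.Sm fun p => cut s p * ht (sd G 0) p := fun p hp => by
  by_cases hb : ‖p.1‖ < r
  · exact (sm_cut N s p hp).mul
      (h.tub.ht_at (hr p.1 ((h.st.mem p.1 p.2).1 hp) hb).2.1).contDiffWithinAt
  · refine (contDiffAt_const (c := (0 : ℝ))).congr_of_eventuallyEq ?_ |>.contDiffWithinAt
    filter_upwards [(continuous_fst.norm.tendsto p).eventually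
      (lt_mem_nhds (hs.trans_le (not_lt.1 hb)))] with q hq
    rw [cut_zero h1 hq.le, zero_mul]

theorem cut_ht_eq {s : ℝ} (h1 : 1 ≤ s) {p : ST} (hp : ‖p.1‖ < s - 1) :
    (fun p => cut s p * ht (sd G 0) p) =ᶠ[𝓝[N.M] p] ht (sd G 0) := by
  filter_upwards [nhdsWithin_le_nhds ((continuous_fst.norm.tendsto p).eventually
    (gt_mem_nhds hp))] with q hq
  rw [cut_one h1 hq.le, one_mul]

theorem tf_amb (hc : IsClosed N.M) {g : E → ℝ} (hg : ContDiff ℝ ∞ g) (hs : HasCompactSupport g)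
    (t : ℝ) : Tf N t fun p => g p.1 :=
  ⟨(hg.comp contDiff_fst).contDiffOn, N.M ∩ tsupport g ×ˢ {t},
    (hs.isCompact.prod isCompact_singleton).inter_left hc, inter_subset_left,
    fun _ hp ht hK => image_eq_zero_of_notMem_tsupport fun h => hK ⟨hp, h, ht⟩⟩

theorem mu_restrict (hN : N.Reg) (t : ℝ) (B : Set E) :
    (N.mu t).restrict (N.sl t ∩ B) = (N.mu t).restrict B :=
  Measure.restrict_congr_set (inter_ae_eq_right_of_ae_eq_univ ((Hu.ae_sl hN t).mono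
    fun _ hx => eq_true hx))

/-- the energy density as a real integral over a part of `N ∩ B_r` -/
theorem h1_int (h : Ctx N Λ G m ρ₀) (hr : Nr N G m ρ₀ r ρ₁ δ) {r' B : ℝ} {A : Set E}
    (hA : MeasurableSet A) (h1 : A ⊆ N.sl 0) (h2 : A ⊆ ball 0 r) (h3 : A ⊆ ball 0 r') (hB : 0 ≤ B)
    (hH : H1 N G r' ≤ ENNReal.ofReal B) :
    IntegrableOn (fun x => (sd G 0 x ^ 2 + N.gam (ht (sd G 0)) (ht (sd G 0)) (x, 0)) * gau 0 1 x)
      A (N.mu 0) ∧
    ∫ x in A, (sd G 0 x ^ 2 + N.gam (ht (sd G 0)) (ht (sd G 0)) (x, 0)) * gau 0 1 x ∂N.mu 0 ≤ B := by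
  have hW : A ⊆ N.sl 0 ∩ tube G 0 (ball 0 m) ρ₀ := fun x hx =>
    ⟨h1 hx, (hr x (h1 hx) (mem_ball_zero_iff.1 (h2 hx))).2.1⟩
  refine int_of_lint hB (ContinuousOn.aestronglyMeasurable ?_ hA) (Eventually.of_forall fun x =>
    mul_nonneg (add_nonneg (sq_nonneg _) (Mv.gam_self_nonneg _ _)) (Gau.gau_pos 0 one_pos x).le)
    (le_trans ?_ hH)
  · exact (((h.tub.ssd.continuousOn.mono fun x hx => (hW hx).2).pow 2).add
      ((h.tub.cont_gam h.greg h.reg 0).mono hW)).mul (Gau.gau_cont 0 1).continuousOn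
  · refine le_trans (le_of_eq (setLIntegral_congr_fun hA fun x hx => ?_)) (lintegral_mono_set h3)
    rw [h.tub.gam_ht h.greg h.reg (p := (x, 0)) (hW hx).1 (hW hx).2]; rfl

theorem dis_int (hN : N.Reg) {B : ℝ} (A : Set E) (hB : 0 ≤ B) (hH : N.dis ≤ ENNReal.ofReal B) :
    IntegrableOn (fun x => N.shr (x, 0) ^ 2 * gau 0 1 x) A (N.mu 0) ∧
      ∫ x in A, N.shr (x, 0) ^ 2 * gau 0 1 x ∂N.mu 0 ≤ B :=
  int_of_lint hB (Hu.aesm_sl hN (((hN.sm_shr.continuousOn.comp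
    (Continuous.prodMk_left 0).continuousOn fun _ hx => hx).pow 2).mul
      (Gau.gau_cont 0 1).continuousOn)).restrict
    (Eventually.of_forall fun x => mul_nonneg (sq_nonneg _) (Gau.gau_pos 0 one_pos x).le)
    ((setLIntegral_le_lintegral _ _).trans hH)

end Ctx

end Crest.Agent.N250.Tb

end
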