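import Crest.Agent.N250.Tb.Tp
import Crest.Agent.N250.R.One
import Crest.Agent.N250.FV.Main

/-!
# Row 250, tube (helper50): coercivity of the second variation on nearby surfaces
-/

set_option autoImplicit false
open MeasureTheory Set Filter Topology Function
open scoped ContDiff InnerProductSpace
open Crest.GeometryTopology.MCF

noncomputable section

namespace Crest.Agent.N250.Tb

theorem sq_int_le {ν : Measure E} [IsFiniteMeasure ν] {a : E → ℝ} (h1 : Integrable a ν)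
    (h2 : Integrable (fun x => a x ^ 2) ν) :
    (∫ x, a x ∂ν) ^ 2 ≤ ν.real univ * ∫ x, a x ^ 2 ∂ν := by
  have := discrim_le_zero (a := ν.real univ) (b := -2 * ∫ x, a x ∂ν) (c := ∫ x, a x ^ 2 ∂ν)
    fun l => by
      have e : ∫ x, (a x - l) ^ 2 ∂ν =
          ν.real univ * (l * l) + -2 * (∫ x, a x ∂ν) * l + ∫ x, a x ^ 2 ∂ν := by
        have : ∀ x, (a x - l) ^ 2 = l * l + (-2 * l) * a x + a x ^ 2 := fun x => by ring
        simp only [this]
        rw [integral_add (f := fun x => l * l + -2 * l * a x)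
          ((integrable_const _).add (h1.const_mul _)) h2, integral_add (integrable_const _) (h1.const_mul _), integral_const, integral_const_mul,
          smul_eq_mul]
        ring
      rw [← e]; exact integral_nonneg fun _ => sq_nonneg _
  rw [discrim] at this
  linarith

theorem gau_near {x y : E} {r δ ε : ℝ} (hx : ‖x‖ ≤ r) (hy : ‖y‖ ≤ r) (hd : ‖x - y‖ ≤ δ)
    (h : δ * r ≤ ε) (h1 : ε ≤ 1) : |gau 0 1 y - gau 0 1 x| ≤ ε * gau 0 1 x := by
  have e : gau 0 1 y - gau 0 1 x = (Real.exp ((‖x‖ ^ 2 - ‖y‖ ^ 2) / 4) - 1) * gau 0 1 x := by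
    simp only [gau, sub_zero, mul_one]
    rw [sub_mul, one_mul, mul_left_comm, ← Real.exp_add]
    congr 3; ring
  have p : 0 < gau 0 1 x := by unfold gau; positivity
  have b : |(‖x‖ ^ 2 - ‖y‖ ^ 2) / 4| ≤ ε / 2 := by
    have a1 := (abs_norm_sub_norm_le x y).trans hd
    rw [sq_sub_sq, abs_div, abs_mul, abs_of_nonneg (by positivity : 0 ≤ ‖x‖ + ‖y‖),
      abs_of_pos (by norm_num : (0 : ℝ) < 4)]
    nlinarith [mul_le_mul (add_le_add hx hy) a1 (abs_nonneg _) (by linarith [norm_nonneg x])]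
  rw [e, abs_mul, abs_of_pos p]
  exact mul_le_mul_of_nonneg_right
    ((Real.abs_exp_sub_one_le (b.trans (by linarith))).trans (by linarith)) p.le

theorem gau_low {x : E} {r : ℝ} (hx : ‖x‖ ≤ r) :
    (4 * Real.pi)⁻¹ * Real.exp (-r ^ 2 / 4) ≤ gau 0 1 x := by
  simp only [gau, sub_zero, mul_one]
  gcongr

theorem co_alg {k a L η n I X Q P κ : ℝ} (hk : 0 < k) (ha : k * a = 1) (hL : 0 ≤ L) (hX : 0 ≤ X)
    (hP : 0 ≤ P) (h1 : k / 2 * I ≤ Q + η * X + a * (2 * P + 2 * (n * (η * X))))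
    (h2 : X ≤ Q + L * I) (hs : 2 * L * a * (η * (1 + 2 * n * a)) ≤ 1 / 2) (h0 : 0 < κ)
    (h3 : κ * (2 * (1 + 2 * L * a)) ≤ 1) (h4 : κ ≤ k / 2) : κ * X ≤ Q + κ⁻¹ * P := by
  have a0 : 0 < a := by by_contra h; nlinarith
  have e1 : I ≤ 2 * a * (Q + η * X + a * (2 * P + 2 * (n * (η * X)))) := by
    have := mul_le_mul_of_nonneg_left h1 (by positivity : 0 ≤ 2 * a)
    have e : 2 * a * (k / 2 * I) = I := by linear_combination I * ha
    linarith
  have e2 : X / 2 ≤ (1 + 2 * L * a) * Q + 4 * L * a ^ 2 * P := by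
    nlinarith [mul_le_mul_of_nonneg_left e1 hL, mul_le_mul_of_nonneg_right hs hX]
  have e3 : 2 * a ≤ κ⁻¹ := by
    rw [le_inv_comm₀ (by positivity) h0, ← one_div, le_div_iff₀ (by positivity)]; nlinarith
  have M : 0 < 1 + 2 * L * a := by positivity
  refine le_of_mul_le_mul_left ?_ M
  nlinarith [mul_le_mul_of_nonneg_right h3 hX, mul_le_mul_of_nonneg_right e3 hP,
    mul_nonneg (mul_nonneg hL a0.le) (mul_nonneg (sub_nonneg.2 e3) hP), mul_nonneg a0.le hP]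

theorem co_pt {ε η K J gx gy U Γ Γ' q A : ℝ} (hε : ε ≤ 1 / 10) (hη : (3 * K + 6) * ε ≤ η)
    (hJ : |J - 1| ≤ ε) (hg : |gy - gx| ≤ ε * gx) (g0 : 0 < gx) (hU : 0 ≤ U) (hΓ : 0 ≤ Γ)
    (hΓ' : 0 ≤ Γ') (h : Γ' ≤ (1 + ε) ^ 2 * Γ) (hq : |q - A| ≤ ε) (hK : |q| ≤ K) :
    1 / 2 * (J * (U * gx)) ≤ (U + Γ') * gy ∧
    (Γ' - (A + 1 / 2) * U) * gy ≤ J * ((Γ - (q + 1 / 2) * U) * gx) + η * (J * ((U + Γ) * gx)) ∧
    J * ((U + Γ) * gx) ≤ J * ((Γ - (q + 1 / 2) * U) * gx) + (K + 3 / 2) * (J * (U * gx)) := by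
  have e0 := (abs_nonneg _).trans hJ
  have K0 := (abs_nonneg _).trans hK
  obtain ⟨J1, J2⟩ := abs_le.1 hJ
  obtain ⟨g1, g2⟩ := abs_le.1 hg
  have η0 : 6 * ε ≤ η := by nlinarith
  have gy0 : 9 / 10 * gx ≤ gy := by nlinarith
  refine ⟨?_, ?_, ?_⟩
  · nlinarith [mul_nonneg hU g0.le, mul_nonneg hΓ' (by linarith : 0 ≤ gy),
      mul_le_mul_of_nonneg_left gy0 hU, mul_le_mul_of_nonneg_right J2 (mul_nonneg hU g0.le)]
  · have a1 : (1 + ε) ^ 2 * gy ≤ J * (1 + η) * gx := by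
      have b1 : (1 + ε) ^ 2 * (1 + ε) ≤ J * (1 + η) := by nlinarith [mul_nonneg e0 e0]
      nlinarith [mul_le_mul_of_nonneg_left g2 (sq_nonneg (1 + ε)),
        mul_le_mul_of_nonneg_right b1 g0.le]
    have a2 : (q + 1 / 2) * (J * gx) - (A + 1 / 2) * gy ≤ η * (J * gx) := by
      have b1 : |J * gx - gy| ≤ 2 * ε * gx := by rw [abs_le]; constructor <;> nlinarith
      have b2 : (q + 1 / 2) * (J * gx - gy) ≤ (K + 1 / 2) * (2 * ε * gx) :=
        (le_abs_self _).trans (by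
          rw [abs_mul]
          exact mul_le_mul ((abs_add_le _ _).trans (by norm_num [hK])) b1 (abs_nonneg _)
            (by linarith))
      have b3 : (q - A) * gy ≤ ε * (11 / 10 * gx) :=
        mul_le_mul (abs_le.1 hq).2 (by nlinarith) (by linarith) e0
      have b4 : η * (9 / 10 * gx) ≤ η * (J * gx) :=
        mul_le_mul_of_nonneg_left (by nlinarith) (by linarith)
      nlinarith [mul_le_mul_of_nonneg_right hη g0.le, mul_nonneg e0 g0.le,
        mul_nonneg K0 (mul_nonneg e0 g0.le)]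
    nlinarith [mul_le_mul_of_nonneg_right h (by linarith : 0 ≤ gy), mul_le_mul_of_nonneg_left a1 hΓ,
      mul_le_mul_of_nonneg_left a2 hU]
  · nlinarith [mul_nonneg (sub_nonneg.2 (abs_le.1 hK).2)
      (mul_nonneg (by linarith : 0 ≤ J) (mul_nonneg hU g0.le))]

variable {S N : Mv} {t R ε η K k : ℝ} {W : Set E} {π : E → E} {d : E → ℝ} {u : ST → ℝ}

theorem mu_pc_lt (hS : S.Reg) (hC : IsClosed S.M) (R : ℝ) : S.mu 0 (pc S R) < ⊤ := by
  obtain ⟨C, h⟩ := muFinS_holds S hS (pc S R ×ˢ {0}) ((isCompact_pc hC).prod isCompact_singleton)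
    (by rintro ⟨y, s⟩ ⟨a, b⟩; obtain rfl : s = 0 := b; exact a.1)
  refine lt_of_le_of_lt (measure_mono fun y hy => ?_)
    ((h 0 0 (|R| + 2) (by positivity)).trans_lt ENNReal.ofReal_lt_top)
  exact ⟨⟨hy, rfl⟩, mem_ball_zero_iff.2 (by
    linarith [mem_closedBall_zero_iff.1 hy.2, le_abs_self R])⟩

theorem int_pc (hS : S.Reg) (hC : IsClosed S.M) {g : E → ℝ} (hg : ContinuousOn g (pc S R)) :
    IntegrableOn g (pc S R) (S.mu 0) :=
  hg.integrableOn_of_subset_isCompact (isCompact_pc hC) (isCompact_pc hC).measurableSet Subset.rfl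
    (mu_pc_lt hS hC R).ne

theorem int_eq_pc (hS : S.Reg) {g : E → ℝ} (hg : ∀ y ∈ S.sl 0, R + 1 < ‖y‖ → g y = 0) :
    ∫ y, g y ∂S.mu 0 = ∫ y in pc S R, g y ∂S.mu 0 :=
  (setIntegral_eq_integral_of_ae_compl_eq_zero ((Hu.ae_sl hS 0).mono fun y hy hn =>
    hg y hy (not_le.1 fun k => hn (And.intro hy (mem_closedBall_zero_iff.2 k))))).symm

theorem cont_pc {g : ST → ℝ} (hg : ContinuousOn g S.M) :
    ContinuousOn (fun y => g (y, 0)) (pc S R) :=
  hg.comp (Continuous.prodMk_left 0).continuousOn fun _ h => h.1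

theorem cont_gau : Continuous (gau 0 1) := by unfold gau; fun_prop

theorem cont_fv0 (hS : S.Reg) {f : E → ℝ} (hf : ContDiff ℝ ∞ f) : ContinuousOn (S.fv f) S.M := by
  have h1 : Continuous (gradient f) :=
    (InnerProductSpace.toDual ℝ E).symm.continuous.comp (hf.continuous_fderiv (by simp))
  exact ((h1.comp continuous_fst).continuousOn.inner hS.sm_n.continuousOn).add
    (hS.sm_H.continuousOn.mul (hf.continuous.comp continuous_fst).continuousOn)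

theorem co_core {n : ℕ} {f : Fin n → E → ℝ} {q : E → ℝ} {ψ : Fin n → E → ℝ} {κ : ℝ}
    (hS : S.IsShr) (hf : ∀ i, ContDiff ℝ ∞ (f i)) (hk : 0 < k)
    (hc : ∀ u : ST → ℝ, S.Sm u → S.CS u {0} →
      k * ∫ x, (u (x, 0) ^ 2 + S.gam u u (x, 0)) * gau 0 1 x ∂S.mu 0 ≤
        ∫ x, (S.gam u u (x, 0) - (S.A2 (x, 0) + 1 / 2) * u (x, 0) ^ 2) * gau 0 1 x ∂S.mu 0 +
          k⁻¹ * ∑ i, (∫ x, S.fv (f i) (x, 0) * u (x, 0) ∂S.mu 0) ^ 2)
    (hN : N.Reg) (h : Tp S N t R ε W π d) (hε : ε ≤ 1 / 10) (hη : (3 * K + 6) * ε ≤ η)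
    (hK : 0 ≤ K) (hη0 : 0 ≤ η)
    (hs : 2 * (K + 3 / 2) * k⁻¹ * (η * (1 + 2 * n * k⁻¹)) ≤ 1 / 2) (h0 : 0 < κ)
    (h3 : κ * (2 * (1 + 2 * (K + 3 / 2) * k⁻¹)) ≤ 1) (h4 : κ ≤ k / 2)
    (hq : ContinuousOn (fun y => q (π y)) (pc S R))
    (hψ : ∀ i, ContinuousOn (fun y => ψ i (π y)) (pc S R))
    (hp : ∀ y ∈ pc S R, |gau 0 1 y - gau 0 1 (π y)| ≤ ε * gau 0 1 (π y) ∧
      |q (π y) - S.A2 (y, 0)| ≤ ε ∧ |q (π y)| ≤ K ∧ ∀ i, (S.mu 0).real (pc S R) *
        (S.fv (f i) (y, 0) - Jac N t π d S (y, 0) * ψ i (π y)) ^ 2 ≤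
          η * (Jac N t π d S (y, 0) * gau 0 1 (π y)))
    (hu : N.Sm u) (hz : ∀ x ∈ N.sl t, R < ‖x‖ → u (x, t) = 0) :
    κ * ∫ x, (u (x, t) ^ 2 + N.gam u u (x, t)) * gau 0 1 x ∂N.mu t ≤
      ∫ x, (N.gam u u (x, t) - (q x + 1 / 2) * u (x, t) ^ 2) * gau 0 1 x ∂N.mu t +
        κ⁻¹ * ∑ i, (∫ x, ψ i x * u (x, t) ∂N.mu t) ^ 2 := by
  have hR := hS.reg
  have hC := hS.closed
  have e2 : ε ≤ 1 / 2 := by linarith
  have hm := (isCompact_pc (R := R) hC).measurableSet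
  have gz : ∀ x ∈ N.sl t, R < ‖x‖ → N.gam u u (x, t) = 0 := fun x a b => by
    simp [Mv.gam_apply, D_zero hN hu hz a b]
  have sm := h.tp_sm e2 hS.st hz hu
  have key := hc _ sm (Tp.tp_cs hC)
  have z1 : ∀ y ∈ S.sl 0, R + 1 < ‖y‖ → tp π t R u (y, 0) = 0 := fun y a b =>
    h.tp_zero e2 hS.st hz (p := (y, 0)) a (by linarith)
  have z2 : ∀ y ∈ S.sl 0, R + 1 < ‖y‖ → S.gam (tp π t R u) (tp π t R u) (y, 0) = 0 :=
    fun y a b => h.gam_zero e2 hS.st hz hR (p := (y, 0)) a (by linarith)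
  have k3 : ∀ i, ∫ x, S.fv (f i) (x, 0) * tp π t R u (x, 0) ∂S.mu 0 =
      ∫ y in pc S R, S.fv (f i) (y, 0) * u (π y, t) ∂S.mu 0 := fun i => by
    rw [int_eq_pc (R := R) hR fun y a b => by rw [z1 y a b, mul_zero]]
    exact setIntegral_congr_fun hm fun y hy => by simp only [h.tp_eq e2 hS.st hz hy]
  rw [int_eq_pc (R := R) hR fun y a b => by simp [z1 y a b, z2 y a b],
    int_eq_pc (R := R) (g := fun x => (_ - _) * _) hR fun y a b => by simp [z1 y a b, z2 y a b]]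
    at key
  simp only [k3] at key
  have k4 : ∀ i, ∫ x, ψ i x * u (x, t) ∂N.mu t =
      ∫ y in pc S R, Jac N t π d S (y, 0) * (ψ i (π y) * u (π y, t)) ∂S.mu 0 := fun i =>
    h.int hR hN hC fun x a b => by rw [hz x a b, mul_zero]
  rw [h.int hR hN hC fun x a b => by simp [hz x a b, gz x a b],
    h.int (g := fun x => (_ - _) * _) hR hN hC fun x a b => by simp [hz x a b, gz x a b]]
  simp only [k4]
  have cJ : ContinuousOn (fun y => Jac N t π d S (y, 0)) (pc S R) :=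
    (h.tub.cont_Jac hN hR 0).mono fun y hy => ⟨hy.1, h.sub hy⟩
  have cu := h.cont hu.continuousOn
  have cΓ := h.cont (hN.sm_gam hu hu).continuousOn
  have cg : ContinuousOn (fun y => gau 0 1 (π y)) (pc S R) :=
    cont_gau.comp_continuousOn (h.tub.spr.continuousOn.mono h.sub)
  have ct := cont_pc (R := R) sm.continuousOn
  have cΓ' := cont_pc (R := R) (hR.sm_gam sm sm).continuousOn
  have cA := cont_pc (R := R) hR.sm_A2.continuousOn
  have iI := int_pc hR hC (cJ.mul ((cu.pow 2).mul cg))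
  have iX := int_pc hR hC (cJ.mul (((cu.pow 2).add cΓ).mul cg))
  have iQ := int_pc hR hC (cJ.mul ((cΓ.sub ((hq.add (continuousOn_const (c := 1 / 2))).mul
    (cu.pow 2))).mul cg))
  have pt := fun y (hy : y ∈ pc S R) => co_pt hε hη (h.jac y hy) (hp y hy).1
    (by unfold gau; positivity) (sq_nonneg (u (π y, t))) (Mv.gam_self_nonneg u (π y, t))
    (Mv.gam_self_nonneg _ _) (h.gam_le e2 hS.st hz hR hN hu hy) (hp y hy).2.1 (hp y hy).2.2.1
  have gp : ∀ x, 0 ≤ gau 0 1 x := fun x => by unfold gau; positivity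
  have a1 := setIntegral_mono_on (iI.const_mul (1 / 2))
    (int_pc hR hC (((ct.pow 2).add cΓ').mul cont_gau.continuousOn)) hm fun y hy => by
      simpa only [Pi.mul_apply, Pi.add_apply, Pi.pow_apply, h.tp_eq e2 hS.st hz hy]
        using (pt y hy).1
  have a2 := setIntegral_mono_on (int_pc hR hC ((cΓ'.sub ((cA.add
    (continuousOn_const (c := 1 / 2))).mul (ct.pow 2))).mul cont_gau.continuousOn))
    (iQ.add (iX.const_mul η)) hm fun y hy => by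
      simpa only [Pi.mul_apply, Pi.add_apply, Pi.pow_apply, Pi.sub_apply, h.tp_eq e2 hS.st hz hy]
        using (pt y hy).2.1
  have a3 := setIntegral_mono_on iX (iQ.add (iI.const_mul (K + 3 / 2))) hm fun y hy => (pt y hy).2.2
  rw [integral_add' iQ (iX.const_mul η), integral_const_mul] at a2
  rw [integral_add' iQ (iI.const_mul _), integral_const_mul] at a3
  rw [integral_const_mul] at a1
  simp only [Pi.mul_apply, Pi.add_apply, Pi.pow_apply, Pi.sub_apply] at a1 a2 a3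
  have a4 : ∀ i, (∫ y in pc S R, S.fv (f i) (y, 0) * u (π y, t) ∂S.mu 0) ^ 2 ≤
      2 * (∫ y in pc S R, Jac N t π d S (y, 0) * (ψ i (π y) * u (π y, t)) ∂S.mu 0) ^ 2 +
      2 * (η * ∫ y in pc S R, Jac N t π d S (y, 0) *
        ((u (π y, t) ^ 2 + N.gam u u (π y, t)) * gau 0 1 (π y)) ∂S.mu 0) := fun i => by
    have cf := cont_pc (R := R) (cont_fv0 hR (hf i))
    have ce := (cf.mul cu).sub (cJ.mul ((hψ i).mul cu))
    have : IsFiniteMeasure ((S.mu 0).restrict (pc S R)) :=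
      isFiniteMeasure_restrict.2 (mu_pc_lt hR hC R).ne
    have b1 := sq_int_le (int_pc hR hC ce) (int_pc hR hC (ce.pow 2))
    rw [integral_sub' (int_pc hR hC (cf.mul cu)) (int_pc hR hC (cJ.mul ((hψ i).mul cu))),
      measureReal_restrict_apply_univ, ← integral_const_mul] at b1
    have b2 := b1.trans (setIntegral_mono_on ((int_pc hR hC (ce.pow 2)).const_mul _)
      (iX.const_mul η) hm fun y hy => by
        simp only [Pi.mul_apply, Pi.add_apply, Pi.pow_apply, Pi.sub_apply]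
        nlinarith [mul_le_mul_of_nonneg_right ((hp y hy).2.2.2 i) (sq_nonneg (u (π y, t))),
          mul_nonneg hη0 (mul_nonneg (Tub.Jac_nonneg (S := N) (t := t) (pr := π) (sd := d) (N := S)
            (y, 0)) (mul_nonneg (Mv.gam_self_nonneg (F := N) u (π y, t)) (gp (π y))))])
    rw [integral_const_mul] at b2
    simp only [Pi.mul_apply, Pi.add_apply, Pi.pow_apply] at b2
    nlinarith [sq_nonneg ((∫ y in pc S R, S.fv (f i) (y, 0) * u (π y, t) ∂S.mu 0) -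
      2 * ∫ y in pc S R, Jac N t π d S (y, 0) * (ψ i (π y) * u (π y, t)) ∂S.mu 0)]
  have a5 := Finset.sum_le_sum fun i (_ : i ∈ Finset.univ) => a4 i
  rw [Finset.sum_add_distrib, ← Finset.mul_sum, Finset.sum_const, Finset.card_univ,
    Fintype.card_fin, nsmul_eq_mul] at a5
  refine co_alg (n := n) hk (mul_inv_cancel₀ hk.ne') (by linarith) ?_
    (Finset.sum_nonneg fun _ _ => sq_nonneg _) ?_ a3 hs h0 h3 h4
  · exact setIntegral_nonneg hm fun y _ => mul_nonneg (Tub.Jac_nonneg _)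
      (mul_nonneg (add_nonneg (sq_nonneg _) (Mv.gam_self_nonneg _ _)) (gp _))
  · nlinarith [mul_le_mul_of_nonneg_left a1 hk.le, mul_le_mul_of_nonneg_left a5 (inv_pos.2 hk).le]

/-- CT: the coercivity of `Cons` passes to surfaces with reach that are close to `S` -/
theorem coer {n : ℕ} {f : Fin n → E → ℝ} (hS : S.IsShr) (hf : Cons S f) {K : ℝ} (hK : 0 ≤ K) :
    ∃ κ : ℝ, 0 < κ ∧ ∀ R c : ℝ, 0 < c → ∃ δ : ℝ, 0 < δ ∧
      ∀ (N : Mv) (t : ℝ) (q : E → ℝ) (ψ : Fin n → E → ℝ), N.Reg →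
      (∀ y ∈ closure (N.sl t), y ∈ Metric.ball (0 : E) (R + 3) → y ∈ N.sl t) →
      (∀ y ∈ N.sl t, y ∈ Metric.ball (0 : E) (R + 3) → N.Reach (y, t) c) →
      (∀ y ∈ S.sl 0, ‖y‖ < R + 2 → ∃ x ∈ N.sl t, dist y x ≤ δ) →
      (∀ x ∈ N.sl t, ‖x‖ < R + 2 → |q x| ≤ K ∧ ∃ y ∈ S.sl 0, dist x y ≤ δ ∧
        |q x - S.A2 (y, 0)| ≤ δ ∧ ∀ i, |ψ i x - S.fv (f i) (y, 0)| ≤ δ) →
      ContinuousOn q (N.sl t ∩ Metric.ball 0 (R + 2)) →
      (∀ i, ContinuousOn (ψ i) (N.sl t ∩ Metric.ball 0 (R + 2))) →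
      ∀ u : ST → ℝ, N.Sm u → (∀ x ∈ N.sl t, R < ‖x‖ → u (x, t) = 0) →
        κ * ∫ x, (u (x, t) ^ 2 + N.gam u u (x, t)) * gau 0 1 x ∂N.mu t ≤
          ∫ x, (N.gam u u (x, t) - (q x + 1 / 2) * u (x, t) ^ 2) * gau 0 1 x ∂N.mu t +
            κ⁻¹ * ∑ i, (∫ x, ψ i x * u (x, t) ∂N.mu t) ^ 2 := by
  obtain ⟨k, hk, hc⟩ := hf.coer
  have hR := hS.reg
  have hC := hS.closed
  refine ⟨min (2 * (1 + 2 * (K + 3 / 2) * k⁻¹))⁻¹ (k / 2), by positivity, fun R c hc0 => ?_⟩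
  obtain ⟨η, η0, hs⟩ : ∃ η : ℝ, 0 < η ∧
      2 * (K + 3 / 2) * k⁻¹ * (η * (1 + 2 * n * k⁻¹)) ≤ 1 / 2 :=
    ⟨(4 * (K + 3 / 2) * k⁻¹ * (1 + 2 * n * k⁻¹))⁻¹, by positivity, le_of_eq (by field_simp; ring)⟩
  have hK2 := isCompact_pc (S := S) (R := R + 1) hC
  have cΦ : ContinuousOn (fun y => ((S.A2 (y, 0), fun i => S.fv (f i) (y, 0)) : ℝ × (Fin n → ℝ)))
      (pc S (R + 1)) := (cont_pc hR.sm_A2.continuousOn).prodMk
        (continuousOn_pi.2 fun i => cont_pc (cont_fv0 hR (hf.sm i)))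
  obtain ⟨M, hM⟩ := hK2.exists_bound_of_continuousOn cΦ
  set m := (S.mu 0).real (pc S R) with hm
  have m0 : 0 ≤ m := measureReal_nonneg
  set g0 := (4 * Real.pi)⁻¹ * Real.exp (-(|R| + 2) ^ 2 / 4) with hg0
  have g0p : 0 < g0 := by positivity
  obtain ⟨ε, ε0, ε1, ε2, ε3⟩ : ∃ ε : ℝ, 0 < ε ∧ ε ≤ 1 / 10 ∧ (3 * K + 6) * ε ≤ η ∧
      (m + 1) * (|M| + 2) ^ 2 * ε ≤ η * (g0 / 2) :=
    ⟨min (1 / 10) (min (η / (3 * K + 6)) (η * (g0 / 2) / ((m + 1) * (|M| + 2) ^ 2))),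
      by positivity, min_le_left _ _,
      (le_div_iff₀' (by positivity)).1 ((min_le_right _ _).trans (min_le_left _ _)),
      (le_div_iff₀' (by positivity)).1 ((min_le_right _ _).trans (min_le_right _ _))⟩
  obtain ⟨σ, σ0, hσ⟩ := Metric.uniformContinuousOn_iff_le.1
    (hK2.uniformContinuousOn_of_continuous cΦ) (ε / 2) (by positivity)
  obtain ⟨ρ₀, ρ0, hρ⟩ := reachPosS_holds S hR univ (Metric.closedBall 0 (R + 2) ×ˢ {0}) isOpen_univ
    (fun p hp _ => hC.closure_subset hp) ((isCompact_closedBall _ _).prod isCompact_singleton)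
    (subset_univ _)
  obtain ⟨ρ, p0, p1, p2, p3⟩ : ∃ ρ : ℝ, 0 < ρ ∧ ρ ≤ 1 ∧ ρ ≤ ρ₀ ∧ ρ ≤ c :=
    ⟨min 1 (min ρ₀ c), by positivity, min_le_left _ _, (min_le_right _ _).trans (min_le_left _ _),
      (min_le_right _ _).trans (min_le_right _ _)⟩
  obtain ⟨δ, δ0, δ1, δ2, δ3⟩ : ∃ δ : ℝ, 0 < δ ∧ δ ≤ ε * ρ / 58 ∧ δ ≤ σ / 2 ∧ δ * (|R| + 2) ≤ ε :=
    ⟨min (ε * ρ / 58) (min (σ / 2) (ε / (|R| + 2))), by positivity, min_le_left _ _,
      (min_le_right _ _).trans (min_le_left _ _),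
      (le_div_iff₀ (by positivity)).1 ((min_le_right _ _).trans (min_le_right _ _))⟩
  have δ4 : δ ≤ ε / 2 := by nlinarith
  refine ⟨δ, δ0, fun N t q ψ hN hCN hRN h1 h2 cq cψ u hu hz => ?_⟩
  obtain ⟨T, T2⟩ := exists_tp (ρ := ρ) hR hN p1 δ0 (by nlinarith)
    (fun y a b => Rch.reach_mono (hR.norm_n (p := (y, 0)) a)
      (hρ _ ⟨a, Metric.ball_subset_closedBall b, rfl⟩) p2)
    (fun y a _ => (hC.preimage (Continuous.prodMk_left 0)).closure_subset a)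
    (fun y a b => Rch.reach_mono (hN.norm_n (p := (y, t)) a) (hRN y a b) p3) hCN h1
    fun x a b => let ⟨_, y, c, e, _⟩ := h2 x a b; ⟨y, c, e⟩
  replace T := T.mono (ε' := ε) (by rw [div_le_iff₀ p0]; linarith)
  have nπ : ∀ y ∈ pc S R, ‖pr N t y‖ ≤ R + 1 + δ := fun y hy => by
    linarith [mem_closedBall_zero_iff.1 hy.2, T2 y hy, norm_le_insert' (pr N t y) y]
  have mπ : MapsTo (pr N t) (pc S R) (N.sl t ∩ Metric.ball 0 (R + 2)) := fun y hy =>
    ⟨T.mem hy, mem_ball_zero_iff.2 (by linarith [nπ y hy])⟩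
  have cπ := T.tub.spr.continuousOn.mono T.sub
  refine co_core hS hf.sm hk hc hN T ε1 ε2 hK η0.le hs (by positivity)
    ((le_inv_mul_iff₀' (by positivity)).1 (by simp)) (min_le_right _ _) (cq.comp cπ mπ)
    (fun i => (cψ i).comp cπ mπ) (fun y hy => ?_) hu hz
  have ny := mem_closedBall_zero_iff.1 hy.2
  have nx : ‖pr N t y‖ ≤ |R| + 2 := by linarith [nπ y hy, le_abs_self R]
  obtain ⟨b1, z, hz, b2, b3, b4⟩ := h2 _ (T.mem hy) (by linarith [nπ y hy])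
  rw [dist_eq_norm] at b2
  have mz : z ∈ pc S (R + 1) :=
    ⟨hz, mem_closedBall_zero_iff.2 (by linarith [nπ y hy, norm_le_insert (pr N t y) z])⟩
  have my : y ∈ pc S (R + 1) := ⟨hy.1, mem_closedBall_zero_iff.2 (by linarith)⟩
  have c1 := hσ z mz y my (by
    have := dist_triangle_left z y (pr N t y)
    rw [dist_eq_norm (pr N t y), dist_eq_norm (pr N t y)] at this
    linarith [T2 y hy])
  rw [Prod.dist_eq, max_le_iff, Real.dist_eq, dist_pi_le_iff (by positivity)] at c1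
  refine ⟨gau_near nx (by linarith [le_abs_self R]) (T2 y hy) δ3 (by linarith),
    (abs_sub_le _ _ _).trans (by linarith [c1.1]), b1, fun i => ?_⟩
  have c2 := c1.2 i
  rw [Real.dist_eq] at c2
  have c3 : |S.fv (f i) (z, 0)| ≤ |M| :=
    ((norm_le_pi_norm (fun i => S.fv (f i) (z, 0)) i).trans
      ((norm_snd_le ((S.A2 (z, 0), fun i => S.fv (f i) (z, 0)) : ℝ × (Fin n → ℝ))).trans
        (hM z mz))).trans (le_abs_self M)
  have c4 := T.jac y hy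
  have c5 := gau_low nx
  have c6 : |ψ i (pr N t y)| ≤ |M| + 1 := by
    linarith [abs_sub_abs_le_abs_sub (ψ i (pr N t y)) (S.fv (f i) (z, 0)), b4 i]
  generalize Jac N t (pr N t) (sd N t) S (y, 0) = J at c4 ⊢
  have c7 : |S.fv (f i) (y, 0) - J * ψ i (pr N t y)| ≤ ε * (|M| + 2) := by
    have : S.fv (f i) (y, 0) - J * ψ i (pr N t y) = -(S.fv (f i) (z, 0) - S.fv (f i) (y, 0)) -
      (ψ i (pr N t y) - S.fv (f i) (z, 0)) - (J - 1) * ψ i (pr N t y) := by ring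
    rw [this]
    refine (abs_sub _ _).trans ?_
    rw [abs_mul]
    linarith [abs_sub (-(S.fv (f i) (z, 0) - S.fv (f i) (y, 0)))
      (ψ i (pr N t y) - S.fv (f i) (z, 0)), abs_neg (S.fv (f i) (z, 0) - S.fv (f i) (y, 0)), b4 i,
      mul_le_mul c4 c6 (abs_nonneg _) ε0.le]
  have c8 := pow_le_pow_left₀ (abs_nonneg _) c7 2
  rw [sq_abs] at c8
  have c9 : g0 / 2 ≤ J * gau 0 1 (pr N t y) := by nlinarith [abs_le.1 c4]
  calc _ ≤ (m + 1) * (ε * (|M| + 2)) ^ 2 := by gcongr; linarith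
    _ = (m + 1) * (|M| + 2) ^ 2 * ε * ε := by ring
    _ ≤ η * (g0 / 2) * 1 := by gcongr; linarith
    _ ≤ _ := by rw [mul_one]; gcongr

end Crest.Agent.N250.Tb

end
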