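import Crest.Agent.N250.Tb.Dual

/-!
# Row 250, tube calculus (helper80): leaf DUAL, main statement
-/

set_option autoImplicit false
open MeasureTheory Set Filter Topology Function Metric
open scoped ContDiff InnerProductSpace
open Crest.GeometryTopology.MCF

noncomputable section

namespace Crest.Agent.N250.Tb

open Sg R

variable {N G : Mv} {Λ m ρ₀ ρ₁ r δ : ℝ} {x : E}

theorem gam_amb_le {p : ST} (hN : N.Reg) (hp : p ∈ N.M) {g : E → ℝ} {L : E →L[ℝ] ℝ} {B : ℝ}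
    (hg : HasFDerivAt g L p.1) (hL : ‖L‖ ≤ B) :
    N.gam (fun q => g q.1) (fun q => g q.1) p ≤ (2 * B) ^ 2 := by
  have h1 : ∀ a, N.D a (fun q => g q.1) p * N.D a (fun q => g q.1) p ≤ B ^ 2 := fun a => by
    have e : N.D a (fun q => g q.1) p = L (N.PL p (ee a)) :=
      hN.td_eq hp (HasFDerivAt.comp p (f := Prod.fst) hg hasFDerivAt_fst).hasFDerivWithinAt
        (hN.tg_PL hp _)
    have h2 := L.le_of_opNorm_le_of_le hL ((norm_PL_le hN hp (ee a)).trans (norm_ee a).le)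
    rw [e, ← sq, ← sq_abs]
    rw [mul_one] at h2
    exact pow_le_pow_left₀ (abs_nonneg _) h2 2
  rw [Mv.gam_apply, Fin.sum_univ_three]
  nlinarith [h1 0, h1 1, h1 2, sq_nonneg B]

/-- Green's formula for the height against an ambient test function -/
theorem green_ht (h : Ctx N Λ G m ρ₀) (hr : Nr N G m ρ₀ r ρ₁ δ) {g : E → ℝ} (hg : ContDiff ℝ ∞ g)
    (hs : HasCompactSupport g) {s : ℝ} (h0 : 0 ≤ s) (hsr : s + 1 < r) (h1 : tsupport g ⊆ ball 0 s) :
    Ig N 0 (fun p => g p.1 * L0 N (ht (sd G 0)) p + N.gam (fun q => g q.1) (ht (sd G 0)) p) ∧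
    IG N 0 (fun p => g p.1 * L0 N (ht (sd G 0)) p + N.gam (fun q => g q.1) (ht (sd G 0)) p) = 0 := by
  have hu := tf_amb h.closed hg hs 0
  have hw := sm_cut_ht h hr (s := s + 1) (by linarith) hsr
  have i1 := (hu.mul h.reg (sm_L0 h.reg hw)).selfG muFinS_holds h.reg
  have i2 := hu.ig_gam h.reg hw
  have e : ∀ x, (x, (0 : ℝ)) ∈ N.M →
      g x * L0 N (fun p => cut (s + 1) p * ht (sd G 0) p) (x, 0) +
        N.gam (fun q => g q.1) (fun p => cut (s + 1) p * ht (sd G 0) p) (x, 0) =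
      g x * L0 N (ht (sd G 0)) (x, 0) + N.gam (fun q => g q.1) (ht (sd G 0)) (x, 0) := by
    intro x hx
    by_cases hb : x ∈ tsupport g
    · have e := cut_ht_eq (N := N) (G := G) (s := s + 1) (by linarith) (p := (x, 0))
        (by simpa using h1 hb)
      simp only [L0, Sg.xD, Mv.gam_apply, Mv.lap_congr hx e, Mv.D_congr hx e]
    · have e : (fun q : ST => g q.1) =ᶠ[𝓝[N.M] (x, 0)] fun _ => 0 :=
        nhdsWithin_le_nhds ((continuous_fst.tendsto (x, (0 : ℝ))).eventually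
          (notMem_tsupport_iff_eventuallyEq.1 hb))
      simp only [image_eq_zero_of_notMem_tsupport hb, zero_mul, Mv.gam_apply, Mv.D_congr hx e,
        h.reg.D_const hx]
  refine ⟨(i1.add i2).congr ((Hu.ae_sl h.reg 0).mono fun x hx => ?_), ?_⟩
  · exact congrArg (· * gau 0 1 x) (e x hx)
  · rw [← IG_congr (f := fun p => g p.1 * L0 N (fun p => cut (s + 1) p * ht (sd G 0) p) p +
      N.gam (fun q => g q.1) (fun p => cut (s + 1) p * ht (sd G 0) p) p) h.reg e, IG_add i1 i2,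
      green muFinS_holds divS_holds h.reg hu hw, neg_add_cancel]

/-- pointwise lower bound of the tested equation -/
theorem test_pt (h : Ctx N Λ G m ρ₀) (hρ : 0 < ρ₀) (hx : x ∈ N.sl 0)
    (hT : x ∈ tube G 0 (ball 0 m) ρ₀) (hd : |sd G 0 x| ≤ ρ₀ / 4) (hρ1 : ρ₀ ≤ 1) {g : E → ℝ}
    {L : E →L[ℝ] ℝ} {B σ a l : ℝ} (hg : HasFDerivAt g L x) (hL : ‖L‖ ≤ B) (g0 : 0 ≤ g x)
    (g1 : g x ≤ 1) (hσ : |σ| = 1) (ha : a ≤ σ * G.shr (pr G 0 x, 0)) (hl : 0 < l) :
    g x * a - (1 + 6 * (2 / ρ₀) ^ 3 + 2 * (2 / ρ₀) + ((2 / ρ₀) ^ 2 + 1 / 2) + 2 * B) *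
      ((l + (sd G 0 x ^ 2 + N.gam (ht (sd G 0)) (ht (sd G 0)) (x, 0) + N.shr (x, 0) ^ 2) / l) / 2)
      ≤ σ * (g x * L0 N (ht (sd G 0)) (x, 0) + N.gam (fun q => g q.1) (ht (sd G 0)) (x, 0)) := by
  set κ := 2 / ρ₀ with hκ
  have hκ0 : 0 ≤ κ := by positivity
  have hB : 0 ≤ B := (norm_nonneg _).trans hL
  have hA := h.A2_le hρ hT
  have hA0 := A2_nonneg G (pr G 0 x, 0)
  have hdκ : |ht (sd G 0) (x, 0)| * κ ≤ 1 / 2 := by
    have := mul_le_mul_of_nonneg_right hd hκ0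
    rwa [show ρ₀ / 4 * κ = 1 / 2 by rw [hκ]; field_simp; norm_num] at this
  have e1 := h.tub.eqn h.greg h.reg (p := (x, 0)) hx hT
  have e2 := h.tub.err_le h.greg h.reg (p := (x, 0)) hx hT hκ0 hA hdκ
  have e3 := h.tub.gam_ht_le h.greg h.reg (p := (x, 0)) hx hT
  have e4 := h.tub.cs_sq_le h.greg h.reg (p := (x, 0)) hx hT
  have e5 := Mv.gam_sq_le (F := N) (fun q => g q.1) (ht (sd G 0)) (x, 0)
  have e6 := gam_amb_le (p := (x, 0)) h.reg hx hg hL
  have e7 := Mv.gam_self_nonneg (F := N) (ht (sd G 0)) (x, 0)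
  have e8 : L0 N (ht (sd G 0)) (x, 0) =
    N.lap (ht (sd G 0)) (x, 0) - xD N (ht (sd G 0)) (x, 0) / 2 := rfl
  change _ + _ * sd G 0 x = _ at e1
  change _ ≤ _ * sd G 0 x ^ 2 + _ at e2
  rw [← e8] at e1
  set v := sd G 0 x
  set γ := N.gam (ht (sd G 0)) (ht (sd G 0)) (x, 0)
  set φ := N.shr (x, 0)
  set c := cs G 0 (pr G 0) N (x, 0)
  set η := N.gam (fun q => g q.1) (ht (sd G 0)) (x, 0)
  have hv1 : v ^ 2 ≤ 1 := (sq_le_one_iff_abs_le_one _).2 (by linarith)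
  have hT0 : 0 ≤ v ^ 2 + γ + φ ^ 2 := by positivity
  have b1 := am (a := φ * c) hl zero_le_one hT0 (by nlinarith [sq_nonneg φ, sq_nonneg v])
  have b2 := am (a := v ^ 2) hl zero_le_one hT0 (by nlinarith [sq_nonneg φ, sq_nonneg v])
  have b3 := am (a := γ) hl zero_le_one hT0 (by nlinarith [sq_nonneg φ, sq_nonneg v])
  have b4 := am (a := v) hl zero_le_one hT0 (by nlinarith [sq_nonneg φ])
  have b5 := am (a := η) (c := 2 * B) hl (by positivity) hT0 (e5.trans (mul_le_mul e6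
    (by nlinarith [sq_nonneg φ, sq_nonneg v]) e7 (by positivity)))
  set Q := (l + (v ^ 2 + γ + φ ^ 2) / l) / 2
  rw [one_mul] at b1 b2 b3 b4
  rw [abs_of_nonneg (sq_nonneg v)] at b2
  rw [abs_of_nonneg e7] at b3
  have hQ : 0 ≤ Q := e7.trans b3
  have c1 : |err G 0 (pr G 0) (sd G 0) N (x, 0)| ≤ 6 * κ ^ 3 * Q + 2 * κ * Q :=
    e2.trans (by gcongr)
  have c2 : |(G.A2 (pr G 0 x, 0) + 1 / 2) * v| ≤ (κ ^ 2 + 1 / 2) * Q := by
    rw [abs_mul, abs_of_nonneg (by linarith)]; gcongr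
  have c3 : |err G 0 (pr G 0) (sd G 0) N (x, 0) - φ * c - (G.A2 (pr G 0 x, 0) + 1 / 2) * v| ≤
      6 * κ ^ 3 * Q + 2 * κ * Q + Q + (κ ^ 2 + 1 / 2) * Q :=
    (abs_sub _ _).trans (add_le_add ((abs_sub _ _).trans (add_le_add c1 b1)) c2)
  have c4 : |σ * (g x * (err G 0 (pr G 0) (sd G 0) N (x, 0) - φ * c -
      (G.A2 (pr G 0 x, 0) + 1 / 2) * v) + η)| ≤
      6 * κ ^ 3 * Q + 2 * κ * Q + Q + (κ ^ 2 + 1 / 2) * Q + 2 * B * Q := by
    rw [abs_mul, hσ, one_mul]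
    refine (abs_add_le _ _).trans (add_le_add ?_ b5)
    rw [abs_mul, abs_of_nonneg g0]
    exact (mul_le_of_le_one_left (abs_nonneg _) g1).trans c3
  have c5 := mul_le_mul_of_nonneg_left ha g0
  rw [eq_sub_of_add_eq e1]
  linarith [(abs_le.1 c4).1]

/-- leaf DUAL -/
theorem dual {S : Mv} {n : ℕ} {f : Fin n → E → ℝ} (hS : S.IsShr) (hC : Cons S f) (hρ : 0 < ρ₀)
    (hρ1 : ρ₀ ≤ 1) (hρ₁ : 0 < ρ₁) (Λ : ℝ) : ∃ δ R₁ C : ℝ, 0 < δ ∧ 0 < C ∧
    ∀ (N G : Mv) (m r R r' δ' w M : ℝ) (c : Fin n → ℝ), Ctx N Λ G m ρ₀ → δ' ≤ δ → R₁ ≤ r →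
      R₁ ≤ R → R₁ ≤ r' → Nr N G m ρ₀ r ρ₁ δ' → Near G S R δ' → Hd N S R δ' → Lag G f c m w →
      N.dis ≤ ENNReal.ofReal (w ^ 2) → 0 < w → 0 ≤ M → H1 N G r' ≤ ENNReal.ofReal (M ^ 2) →
      ‖c‖ ≤ C * (w + M) := by
  obtain ⟨K, hK0, hK⟩ := exists_C2_fin hC.sm hC.cs
  obtain ⟨k, r₁, R₀, hk, hr₁, hR₀, hpt⟩ := exists_pts (T := S.sl 0)
    (h := fun i x => S.fv (f i) (x, 0)) (fun i => (cont_fv hS.reg (hK i)).comp
      (Continuous.prodMk_left 0).continuousOn fun _ hx => hx) hC.indep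
  set κ := 2 / ρ₀ with hκ
  have hκ0 : 0 ≤ κ := by positivity
  obtain ⟨s, s0, s1, s2, s3⟩ : ∃ s : ℝ, 0 < s ∧ s ≤ r₁ / 2 ∧ s ≤ ρ₁ ∧ s ≤ 1 :=
    ⟨min (min (r₁ / 2) ρ₁) 1, by positivity, (min_le_left _ _).trans (min_le_left _ _),
      (min_le_left _ _).trans (min_le_right _ _), min_le_right _ _⟩
  obtain ⟨δ, d0, d1, d2, d3⟩ : ∃ δ : ℝ, 0 < δ ∧ δ ≤ s / 4 ∧ δ ≤ ρ₀ / 4 ∧
      n * (K * (5 + 4 * κ) * δ) ≤ k / 2 := by
    refine ⟨min (min (s / 4) (ρ₀ / 4)) (k / 2 / (n * (K * (5 + 4 * κ)) + 1)), by positivity,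
      (min_le_left _ _).trans (min_le_left _ _), (min_le_left _ _).trans (min_le_right _ _), ?_⟩
    have := (le_div_iff₀ (by positivity)).1
      (min_le_right (min (s / 4) (ρ₀ / 4)) (k / 2 / (n * (K * (5 + 4 * κ)) + 1)))
    have : 0 < min (min (s / 4) (ρ₀ / 4)) (k / 2 / (n * (K * (5 + 4 * κ)) + 1)) := by positivity
    nlinarith
  let b : ContDiffBump (0 : E) := ⟨s / 2, s, half_pos s0, half_lt_self s0⟩
  have hb : ContDiff ℝ ∞ b := b.contDiff
  obtain ⟨B, hB⟩ := (hb.continuous_fderiv (by simp)).bounded_above_of_compact_support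
    (b.hasCompactSupport.fderiv ℝ)
  have hB0 : 0 ≤ B := (norm_nonneg _).trans (hB 0)
  set C₁ := 1 + 6 * κ ^ 3 + 2 * κ + (κ ^ 2 + 1 / 2) + 2 * B with hC₁
  have hC₁0 : 0 ≤ C₁ := by positivity
  set Z := 4 * Real.pi * Real.exp ((R₀ + 1) ^ 2 / 4) with hZ
  have hZ0 : 0 < Z := by have := Real.pi_pos; positivity
  set γ₀ := Z⁻¹ * ((s / 4) ^ 2 / 32) with hγ₀
  have hγ : 0 < γ₀ := by positivity
  refine ⟨δ, R₀ + 4, 2 / k * (1 + C₁ * (|Λ| + 1) / γ₀), d0, by positivity, ?_⟩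
  intro N G m r R r' δ' w M c h hδ hr hR hr' hN hNe hH hL hdis hw hM hH1
  have hl : 0 < w + M := by positivity
  by_cases hc : c = 0
  · rw [hc, norm_zero]; positivity
  obtain ⟨y, hy, hyR, σ, hσ, hsg⟩ := hpt c hc
  set A := N.sl 0 ∩ ball y s with hA
  have mA : MeasurableSet A := (Hu.meas_sl h.reg 0).inter measurableSet_ball
  have nb : ∀ x ∈ closedBall y s, ‖x‖ ≤ R₀ + 1 := fun x hx => by
    have := norm_le_of_mem_closedBall hx; linarith
  have nA : ∀ x ∈ A, ‖x‖ ≤ R₀ + 1 := fun x hx => nb x (ball_subset_closedBall hx.2)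
  let g : E → ℝ := fun x => b (x - y)
  have hg : ContDiff ℝ ∞ g := hb.comp (contDiff_id.sub contDiff_const)
  have hg0 : ∀ x, x ∉ ball y s → g x = 0 := fun x hx =>
    b.zero_of_le_dist (by rwa [dist_zero_right, ← dist_eq_norm, ← not_lt, ← mem_ball])
  have hgs : tsupport g ⊆ closedBall y s :=
    closure_minimal (fun x hx => ball_subset_closedBall (by_contra fun h => hx (hg0 x h)))
      isClosed_closedBall
  have hgc : HasCompactSupport g := (isCompact_closedBall y s).of_isClosed_subset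
    (isClosed_tsupport _) hgs
  have hgd : ∀ x, HasFDerivAt g (fderiv ℝ b (x - y)) x := fun x =>
    (HasFDerivAt.comp x (f := fun x => x - y) (hb.differentiable (by simp) (x - y)).hasFDerivAt
      ((hasFDerivAt_id x).sub_const y)).congr_fderiv (ContinuousLinearMap.comp_id _)
  obtain ⟨i1, e1⟩ := green_ht h hN hg hgc (s := R₀ + 2) (by linarith) (by linarith)
    fun x hx => mem_ball_zero_iff.2 (by linarith [nb x (hgs hx)])
  -- sign of `shr` of the model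
  have hsh : ∀ x ∈ A, k / 2 * ‖c‖ - w ≤ σ * G.shr (pr G 0 x, 0) := fun x hx => by
    obtain ⟨-, h1, h2⟩ := hN x hx.1 (by linarith [nA x hx])
    have h3 := dist_pr h.greg h.hR h1
    have h4 : ‖pr G 0 x‖ ≤ ‖x‖ + δ := by
      have := norm_le_insert' (pr G 0 x) x
      rw [← dist_eq_norm, dist_comm, h3] at this
      linarith
    obtain ⟨z, hz, z1, z2, z3⟩ := hNe.1 _ (pr_mem h.greg h.hR h1) (by linarith [nA x hx])
    have h5 := hsg z hz (by
      have := dist_triangle4 z (pr G 0 x) x y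
      rw [dist_comm z (pr G 0 x), dist_comm (pr G 0 x) x, h3] at this
      linarith [mem_ball.1 hx.2])
    have h6 : |∑ i, c i * G.fv (f i) (pr G 0 x, 0) - ∑ i, c i * S.fv (f i) (z, 0)| ≤
        k / 2 * ‖c‖ := by
      rw [← Finset.sum_sub_distrib]
      refine (Finset.abs_sum_le_sum_abs _ _).trans ((Finset.sum_le_sum
        (g := fun _ => ‖c‖ * (K * (5 + 4 * κ) * δ)) fun i _ => ?_).trans ?_)
      · rw [← mul_sub, abs_mul]
        exact mul_le_mul (norm_le_pi_norm c i) (fv_close h.greg (pr_mem h.greg h.hR h1) (hK i) hκ0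
          (h.A2_le hρ h1) (by linarith) (z1.trans_le hδ) (z2.trans_le hδ)
          fun a b => (z3 a b).trans_le hδ) (abs_nonneg _) (norm_nonneg _)
      · simp only [Finset.sum_const, Finset.card_univ, Fintype.card_fin, nsmul_eq_mul]
        nlinarith [norm_nonneg c]
    have h7 := hL _ (pr_mem h.greg h.hR h1) (mem_ball_zero_iff.1 (pr_memU h.greg h.hR h1))
    have habs : ∀ a : ℝ, |σ * a| = |a| := fun a => by rw [abs_mul, hσ, one_mul]
    rw [← habs] at h6 h7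
    have h8 := Gau.gau_pos 0 one_pos (pr G 0 x)
    have h9 := gau_le_one (pr G 0 x)
    have h10 : k / 2 * ‖c‖ ≤ gau 0 1 (pr G 0 x) * (σ * G.shr (pr G 0 x, 0) + w) := by
      linarith [(abs_le.1 h6).1, (abs_le.1 h7).1]
    have h11 : 0 ≤ σ * G.shr (pr G 0 x, 0) + w :=
      nonneg_of_mul_nonneg_right ((by positivity : (0 : ℝ) ≤ _).trans h10) h8 |> fun h => h
    nlinarith
  have hfin : N.mu 0 A ≤ ENNReal.ofReal |Λ| := (measure_mono inter_subset_right).trans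
    ((h.ar 0 y s s0).trans (ENNReal.ofReal_le_ofReal (by
      nlinarith [le_abs_self Λ, abs_nonneg Λ, mul_le_one₀ s3 s0.le s3])))
  have hfin' : N.mu 0 A ≠ ⊤ := (hfin.trans_lt ENNReal.ofReal_lt_top).ne
  obtain ⟨i2, e2⟩ := h1_int h hN mA inter_subset_left
    (fun x hx => mem_ball_zero_iff.2 (by linarith [nA x hx]))
    (fun x hx => mem_ball_zero_iff.2 (by linarith [nA x hx])) (sq_nonneg M) hH1
  obtain ⟨i3, e3⟩ := dis_int h.reg A (sq_nonneg w) hdis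
  have i4 : IntegrableOn (fun x => g x * gau 0 1 x) A (N.mu 0) :=
    ((tf_amb h.closed hg hgc 0).selfG muFinS_holds h.reg).integrableOn
  have i5 : IntegrableOn (fun _ => (1 : ℝ)) A (N.mu 0) := integrableOn_const hfin'
  have e5 : ∫ _ in A, (1 : ℝ) ∂N.mu 0 ≤ |Λ| := by
    rw [setIntegral_const, smul_eq_mul, mul_one]
    exact ENNReal.toReal_le_of_le_ofReal (abs_nonneg _) hfin
  have e4 : γ₀ ≤ ∫ x in A, g x * gau 0 1 x ∂N.mu 0 := by
    obtain ⟨x₀, hx₀, hd₀⟩ := hH.2 y hy (by linarith)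
    have sub : ball x₀ (s / 4) ⊆ ball y (s / 2) := ball_subset_ball' (by linarith)
    have sub' : ball y (s / 2) ⊆ ball y s := ball_subset_ball (by linarith)
    have a1 := area_lower h.reg hx₀ (r := s / 4) (ρ := ρ₁) (by positivity) (by linarith)
      (fun z hz _ => h.cl.closure_subset hz)
      fun z hz hz' => (hN z hz (by linarith [nA z ⟨hz, sub' (sub hz')⟩])).1
    have sA : N.sl 0 ∩ ball x₀ (s / 4) ⊆ A := inter_subset_inter_right _ (sub.trans sub')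
    have a2 : N.mu 0 (N.sl 0 ∩ ball x₀ (s / 4)) = N.mu 0 (ball x₀ (s / 4)) := by
      rw [← Measure.restrict_apply_univ, mu_restrict h.reg, Measure.restrict_apply_univ]
    have a3 : (s / 4) ^ 2 / 32 ≤ (N.mu 0).real (N.sl 0 ∩ ball x₀ (s / 4)) :=
      (ENNReal.ofReal_le_iff_le_toReal (ne_top_of_le_ne_top hfin' (measure_mono sA))).1
        (a2 ▸ a1)
    refine le_trans ?_ (setIntegral_mono_set i4 (Eventually.of_forall fun x =>
      mul_nonneg b.nonneg (Gau.gau_pos 0 one_pos x).le) sA.eventuallyLE)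
    refine le_trans (mul_le_mul_of_nonneg_left a3 (by positivity)) (setIntegral_ge_of_const_le_real
      ((Hu.meas_sl h.reg 0).inter measurableSet_ball)
      (ne_top_of_le_ne_top hfin' (measure_mono sA)) (fun x hx => ?_) (i4.mono_set sA))
    have : g x = 1 := b.one_of_mem_closedBall (by
      rw [mem_closedBall_zero_iff, ← dist_eq_norm]; exact (mem_ball.1 (sub hx.2)).le)
    rw [this, one_mul, inv_le_iff_one_le_mul₀' hZ0]
    exact gau_ge (nA x (sA hx))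
  have e6 : ∫ x in A, σ * ((g x * L0 N (ht (sd G 0)) (x, 0) +
      N.gam (fun q => g q.1) (ht (sd G 0)) (x, 0)) * gau 0 1 x) ∂N.mu 0 = 0 := by
    rw [integral_const_mul, setIntegral_eq_integral_of_ae_compl_eq_zero]
    · exact mul_eq_zero_of_right _ e1
    refine (Hu.ae_sl h.reg 0).mono fun x hx hxA => ?_
    have z0 : g x = 0 := hg0 x fun hb => hxA ⟨hx, hb⟩
    have z1 : fderiv ℝ b (x - y) = 0 :=
      IsLocalMin.hasFDerivAt_eq_zero (Eventually.of_forall fun z => z0.trans_le b.nonneg) (hgd x)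
    have z2 := gam_amb_le (p := (x, 0)) h.reg hx (hgd x) (B := 0) (by simp [z1])
    have z3 := Mv.gam_sq_le (F := N) (fun q => g q.1) (ht (sd G 0)) (x, 0)
    have z4 := Mv.gam_self_nonneg (F := N) (ht (sd G 0)) (x, 0)
    have z5 : N.gam (fun q => g q.1) (ht (sd G 0)) (x, 0) = 0 :=
      pow_eq_zero_iff two_ne_zero |>.1 (le_antisymm (by nlinarith) (sq_nonneg _))
    rw [z0, z5]; simp
  have j1 : IntegrableOn (fun x => (sd G 0 x ^ 2 + N.gam (ht (sd G 0)) (ht (sd G 0)) (x, 0)) *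
      gau 0 1 x + N.shr (x, 0) ^ 2 * gau 0 1 x) A (N.mu 0) := i2.add i3
  have j2 : IntegrableOn (fun x => (w + M) * 1 + (w + M)⁻¹ * ((sd G 0 x ^ 2 +
      N.gam (ht (sd G 0)) (ht (sd G 0)) (x, 0)) * gau 0 1 x + N.shr (x, 0) ^ 2 * gau 0 1 x))
      A (N.mu 0) := (i5.const_mul _).add (j1.const_mul _)
  have e7 : ∫ x in A, ((k / 2 * ‖c‖ - w) * (g x * gau 0 1 x) - C₁ / 2 * ((w + M) * 1 +
      (w + M)⁻¹ * ((sd G 0 x ^ 2 + N.gam (ht (sd G 0)) (ht (sd G 0)) (x, 0)) * gau 0 1 x +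
        N.shr (x, 0) ^ 2 * gau 0 1 x))) ∂N.mu 0 ≤ 0 := by
    refine le_of_le_of_eq (setIntegral_mono_on ((i4.const_mul _).sub (j2.const_mul _))
      (i1.integrableOn.const_mul σ) mA fun x hx => ?_) e6
    obtain ⟨-, h1, h2⟩ := hN x hx.1 (by linarith [nA x hx])
    have h3 := mul_le_mul_of_nonneg_right (test_pt h hρ hx.1 h1 (by linarith) hρ1 (hgd x) (hB _)
      b.nonneg b.le_one hσ (hsh x hx) hl) (Gau.gau_pos 0 one_pos x).le
    have h4 := mul_le_mul_of_nonneg_left (gau_le_one x) (show 0 ≤ C₁ / 2 * (w + M) by positivity)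
    rw [← hκ, ← hC₁, div_eq_inv_mul _ (w + M)] at h3
    linarith
  rw [integral_sub (i4.const_mul _) (j2.const_mul _), integral_const_mul, integral_const_mul,
    integral_add (i5.const_mul _) (j1.const_mul _), integral_const_mul,
    integral_const_mul, integral_add i2 i3] at e7
  have e8 : (w + M)⁻¹ * (M ^ 2 + w ^ 2) ≤ w + M := by
    rw [inv_mul_le_iff₀ hl]; nlinarith
  have e9 : (k / 2 * ‖c‖ - w) * ∫ x in A, g x * gau 0 1 x ∂N.mu 0 ≤ C₁ * (|Λ| + 1) * (w + M) := by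
    have a1 := mul_le_mul_of_nonneg_left (add_le_add e2 e3) (inv_pos.2 hl).le
    have a2 := mul_le_mul_of_nonneg_left e5 hl.le
    have a3 := mul_le_mul_of_nonneg_left (add_le_add a2 (a1.trans e8))
      (show 0 ≤ C₁ / 2 by positivity)
    have : 0 ≤ C₁ * (|Λ| + 1) * (w + M) := by positivity
    linarith
  have e10 : k / 2 * ‖c‖ - w ≤ C₁ * (|Λ| + 1) / γ₀ * (w + M) := by
    rcases le_or_gt (k / 2 * ‖c‖ - w) 0 with h0 | h0
    · exact h0.trans (by positivity)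
    · rw [div_mul_eq_mul_div _ γ₀, le_div_iff₀ hγ]
      exact (mul_le_mul_of_nonneg_left e4 h0.le).trans e9
  rw [mul_assoc, div_mul_eq_mul_div, le_div_iff₀ hk]
  linarith

end Crest.Agent.N250.Tb

end
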