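import Crest.Agent.N250.Tb.J
import Crest.Agent.N250.R.One
import Crest.Agent.N250.FV.Hu0

/-!
# Row 250, tube calculus (helper80): second order expansion of `∫_N f - ∫_S f` (leaf PAIR)
-/

set_option autoImplicit false
open MeasureTheory Set Filter Topology Function
open scoped ContDiff InnerProductSpace ENNReal
open Crest.GeometryTopology.MCF

noncomputable section

namespace Crest.Agent.N250.Tb

/-- `C²` bound in Taylor form -/
structure C2 (f : E → ℝ) (M : ℝ) : Prop where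
  cont : Continuous f
  cont' : Continuous (gradient f)
  b0 : ∀ y, |f y| ≤ M
  b1 : ∀ y, ‖gradient f y‖ ≤ M
  b2 : ∀ y w, |f (y + w) - f y - ⟪gradient f y, w⟫_ℝ| ≤ M * ‖w‖ ^ 2
  l1 : ∀ y w, ‖gradient f (y + w) - gradient f y‖ ≤ M * ‖w‖

theorem C2.nonneg {f : E → ℝ} {M : ℝ} (h : C2 f M) : 0 ≤ M := (abs_nonneg _).trans (h.b0 0)

theorem C2.mono {f : E → ℝ} {M M' : ℝ} (h : C2 f M) (hM : M ≤ M') : C2 f M' :=
  ⟨h.cont, h.cont', fun y => (h.b0 y).trans hM, fun y => (h.b1 y).trans hM,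
    fun y w => (h.b2 y w).trans (by gcongr), fun y w => (h.l1 y w).trans (by gcongr)⟩

theorem exists_C2 {f : E → ℝ} (hf : ContDiff ℝ ∞ f) (hc : HasCompactSupport f) :
    ∃ M, C2 f M := by
  have h1 : ContDiff ℝ ∞ (fderiv ℝ f) := hf.fderiv_right (by simp)
  obtain ⟨M0, h0⟩ := hf.continuous.bounded_above_of_compact_support hc
  obtain ⟨M1, hM1⟩ := h1.continuous.bounded_above_of_compact_support (hc.fderiv ℝ)
  obtain ⟨L, hL⟩ := h1.lipschitzWith_of_hasCompactSupport (hc.fderiv ℝ) (by simp)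
  have hd : ∀ y, HasFDerivAt f (fderiv ℝ f y) y := fun y =>
    (hf.differentiable (by simp) y).hasFDerivAt
  have hL' : ∀ y w, ‖fderiv ℝ f (y + w) - fderiv ℝ f y‖ ≤ L * ‖w‖ := fun y w => by
    simpa [dist_eq_norm] using hL.dist_le_mul (y + w) y
  have m2 : (L : ℝ) ≤ max (max M0 M1) L := le_max_right _ _
  refine ⟨max (max M0 M1) L, hf.continuous,
    (InnerProductSpace.toDual ℝ E).symm.continuous.comp h1.continuous,
    fun y => (h0 y).trans ((le_max_left _ _).trans (le_max_left _ _)), fun y => ?_, fun y w => ?_,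
    fun y w => ?_⟩
  · rw [gradient, LinearIsometryEquiv.norm_map]
    exact (hM1 y).trans ((le_max_right _ _).trans (le_max_left _ _))
  · have := (convex_closedBall y ‖w‖).norm_image_sub_le_of_norm_hasFDerivWithin_le'
      (φ := fderiv ℝ f y) (C := L * ‖w‖) (fun z _ => (hd z).hasFDerivWithinAt)
      (fun z hz => by
        have := hL' y (z - y)
        rw [add_sub_cancel] at this
        refine this.trans ?_
        gcongr
        rwa [Metric.mem_closedBall, dist_eq_norm] at hz)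
      (Metric.mem_closedBall_self (norm_nonneg w))
      (show y + w ∈ Metric.closedBall y ‖w‖ by simp)
    rw [add_sub_cancel_left, Real.norm_eq_abs] at this
    rw [inner_gradient_left]
    refine this.trans ?_
    rw [mul_assoc, ← sq]
    gcongr
  · rw [gradient, gradient, ← map_sub, LinearIsometryEquiv.norm_map]
    exact (hL' y w).trans (by gcongr)

theorem exists_C2_fin {n : ℕ} {f : Fin n → E → ℝ} (hf : ∀ i, ContDiff ℝ ∞ (f i))
    (hc : ∀ i, HasCompactSupport (f i)) : ∃ M, 0 ≤ M ∧ ∀ i, C2 (f i) M := by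
  choose M hM using fun i => exists_C2 (hf i) (hc i)
  exact ⟨∑ i, M i, Finset.sum_nonneg fun i _ => (hM i).nonneg, fun i => (hM i).mono
    (Finset.single_le_sum (fun i _ => (hM i).nonneg) (Finset.mem_univ i))⟩

theorem abs_H_le {S : Mv} {p : ST} (hS : S.Reg) (hp : p ∈ S.M) {κ : ℝ} (hκ : 0 ≤ κ)
    (hA : S.A2 p ≤ κ ^ 2) : |S.H p| ≤ 2 * κ :=
  abs_le_of_sq_le_sq (by nlinarith [H_sq_le hS hp, sq_nonneg κ]) (by positivity)

theorem abs_fv_le {S : Mv} {p : ST} (hS : S.Reg) (hp : p ∈ S.M) {κ : ℝ} (hκ : 0 ≤ κ)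
    (hA : S.A2 p ≤ κ ^ 2) {f : E → ℝ} {M : ℝ} (hf : C2 f M) : |S.fv f p| ≤ M * (1 + 2 * κ) := by
  have h1 := abs_real_inner_le_norm (gradient f p.1) (S.n p)
  rw [hS.norm_n hp, mul_one] at h1
  have h2 : |S.H p * f p.1| ≤ 2 * κ * M := by
    rw [abs_mul]
    exact mul_le_mul (abs_H_le hS hp hκ hA) (hf.b0 _) (abs_nonneg _) (by positivity)
  have := hf.b1 p.1
  rw [Mv.fv]
  refine (abs_add_le _ _).trans ?_
  linarith

theorem cont_fv {S : Mv} (hS : S.Reg) {f : E → ℝ} {M : ℝ} (hf : C2 f M) :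
    ContinuousOn (S.fv f) S.M :=
  ((hf.cont'.comp continuous_fst).continuousOn.inner hS.sm_n.continuousOn).add
    (hS.sm_H.continuousOn.mul (hf.cont.comp continuous_fst).continuousOn)

namespace Tub

variable {S N : Mv} {t s κ M : ℝ} {W A : Set E} {pr : E → E} {sd : E → ℝ} {x : E} {p : ST}
  {f : E → ℝ}

variable (h : Tub S t W pr sd) (hS : S.Reg) (hN : N.Reg)
include h hS hN

section Pt

variable (hp : p ∈ N.M) (hW : p.1 ∈ W) (hκ : 0 ≤ κ) (hA : S.A2 (pr p.1, t) ≤ κ ^ 2)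
  (hd : |sd p.1| * κ ≤ 1 / 2)
include hp hW hκ hA hd

theorem Jac_le : Jac S t pr sd N p ≤ 3 := by
  have h1 := dt_ge hκ hA hd
  have h2 := (sq_le_one_iff_abs_le_one _).1 (h.cs_sq_le hS hN hp hW)
  rw [Jac, abs_of_pos (a := dt S t pr sd p.1) (by linarith), div_le_iff₀ (by linarith)]
  linarith

/-- expansion of the Jacobian -/
theorem Jac_exp : |1 - Jac S t pr sd N p - sd p.1 * S.H (pr p.1, t)| ≤
    8 * κ ^ 2 * sd p.1 ^ 2 + 3 * N.gam (ht sd) (ht sd) p := by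
  have hy := h.mem _ hW
  have h1 := dt_ge hκ hA hd
  have h2 := (sq_le_one_iff_abs_le_one _).1 (h.cs_sq_le hS hN hp hW)
  have h3 := h.gam_ht hS hN hp hW
  have h4 := H_sq_le hS hy
  have h5 := abs_K_le hS hy
  have h6 : |sd p.1 * S.H (pr p.1, t)| ≤ 1 := by
    rw [abs_mul]
    have := mul_le_mul_of_nonneg_left (abs_H_le hS hy hκ hA) (abs_nonneg (sd p.1))
    linarith
  set d := sd p.1
  set H := S.H (pr p.1, t)
  set K := S.K (pr p.1, t)
  set c := |cs S t pr N p|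
  set g := N.gam (ht sd) (ht sd) p
  have hc : 0 ≤ c := abs_nonneg _
  have hg : g = 1 - c ^ 2 := by rw [h3, sq_abs]
  have hpos : 0 < dt S t pr sd p.1 := by linarith
  have e : 1 - Jac S t pr sd N p - d * H =
      ((1 - c) + d ^ 2 * (K - H ^ 2 - d * H * K)) / dt S t pr sd p.1 := by
    rw [Jac, abs_of_pos hpos, eq_div_iff hpos.ne', sub_mul, sub_mul, div_mul_cancel₀ _ hpos.ne', dt]
    ring
  have h7 : |K - H ^ 2 - d * H * K| ≤ 3 * κ ^ 2 := by
    have : |d * H * K| ≤ |K| := by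
      rw [abs_mul (d * H)]; exact mul_le_of_le_one_left (abs_nonneg _) h6
    have a1 := abs_le.1 (this.trans h5)
    have a2 := abs_le.1 h5
    rw [abs_le]
    constructor <;> nlinarith [sq_nonneg H]
  have h8 : |(1 - c) + d ^ 2 * (K - H ^ 2 - d * H * K)| ≤ g + d ^ 2 * (3 * κ ^ 2) := by
    refine (abs_add_le _ _).trans (add_le_add ?_ ?_)
    · rw [abs_of_nonneg (by linarith), hg]; nlinarith
    · rw [abs_mul, abs_of_nonneg (sq_nonneg d)]; gcongr
  have hg0 : 0 ≤ g := Mv.gam_self_nonneg _ _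
  rw [e, abs_div, abs_of_pos hpos, div_le_iff₀ hpos]
  refine h8.trans ?_
  have := mul_le_mul_of_nonneg_left h1
    (show 0 ≤ 8 * κ ^ 2 * d ^ 2 + 3 * g by positivity)
  linarith

/-- pointwise form of PAIR -/
theorem pair_pt (hf : C2 f M) :
    |f p.1 - Jac S t pr sd N p * f (pr p.1) - sd p.1 * S.fv f (pr p.1, t)| ≤
      M * (3 + 8 * κ ^ 2) * (sd p.1 ^ 2 + N.gam (ht sd) (ht sd) p) := by
  have hy := h.mem _ hW
  have h1 := hf.b2 (pr p.1) (sd p.1 • S.n (pr p.1, t))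
  rw [← h.dec _ hW, norm_smul, hS.norm_n hy, mul_one, Real.norm_eq_abs, sq_abs,
    inner_smul_right] at h1
  have h2 := h.Jac_exp hS hN hp hW hκ hA hd
  have hg0 : 0 ≤ N.gam (ht sd) (ht sd) p := Mv.gam_self_nonneg _ _
  have hM := hf.nonneg
  have h3 : |f (pr p.1) * (1 - Jac S t pr sd N p - sd p.1 * S.H (pr p.1, t))| ≤
      M * (8 * κ ^ 2 * sd p.1 ^ 2 + 3 * N.gam (ht sd) (ht sd) p) := by
    rw [abs_mul]; exact mul_le_mul (hf.b0 _) h2 (abs_nonneg _) hM
  have e : f p.1 - Jac S t pr sd N p * f (pr p.1) - sd p.1 * S.fv f (pr p.1, t) =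
      (f p.1 - f (pr p.1) - sd p.1 * ⟪gradient f (pr p.1), S.n (pr p.1, t)⟫_ℝ) +
      f (pr p.1) * (1 - Jac S t pr sd N p - sd p.1 * S.H (pr p.1, t)) := by
    rw [Mv.fv]; ring
  rw [e]
  refine (abs_add_le _ _).trans ((add_le_add h1 h3).trans ?_)
  have a1 : 0 ≤ M * sd p.1 ^ 2 := by positivity
  have a2 : 0 ≤ M * κ ^ 2 * N.gam (ht sd) (ht sd) p := by positivity
  nlinarith

end Pt

theorem cont_gam (s : ℝ) : ContinuousOn (fun x => N.gam (ht sd) (ht sd) (x, s)) (N.sl s ∩ W) :=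
  (continuousOn_const.sub ((h.cont_cs hS hN s).pow 2)).congr fun x hx =>
    h.gam_ht hS hN (p := (x, s)) hx.1 hx.2

omit hS hN in
theorem cont_pull {g : ST → ℝ} (hg : ContinuousOn g S.M) : ContinuousOn (fun x => g (pr x, t)) W :=
  hg.comp (h.spr.continuousOn.prodMk continuousOn_const) h.mem

omit h hS hN in
theorem intg_bdd {μ : Measure E} (hA : MeasurableSet A) (hfin : μ A ≠ ⊤) {g : E → ℝ} {C : ℝ}
    (hg : ContinuousOn g A) (hb : ∀ x ∈ A, |g x| ≤ C) : IntegrableOn g A μ :=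
  haveI : IsFiniteMeasure (μ.restrict A) := isFiniteMeasure_restrict.2 hfin
  Integrable.of_bound (hg.aestronglyMeasurable hA) C
    ((ae_restrict_iff' hA).2 (Eventually.of_forall hb))

/-- leaf PAIR -/
theorem pair (hA : MeasurableSet A) (hs : A ⊆ N.sl s ∩ W) (hi : InjOn pr A)
    (hfin : N.mu s A ≠ ⊤) (hκ : 0 ≤ κ) (hA2 : ∀ x ∈ A, S.A2 (pr x, t) ≤ κ ^ 2)
    (hd : ∀ x ∈ A, |sd x| * κ ≤ 1 / 2) (hd1 : ∀ x ∈ A, |sd x| ≤ 1) (hf : C2 f M)
    (h1 : ∀ x ∈ N.sl s, f x ≠ 0 → x ∈ A) (h2 : ∀ y ∈ S.sl t, f y ≠ 0 → y ∈ pr '' A) :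
    |∫ x, f x ∂N.mu s - ∫ y, f y ∂S.mu t - ∫ x in A, sd x * S.fv f (pr x, t) ∂N.mu s| ≤
      M * (3 + 8 * κ ^ 2) * ∫ x in A, (sd x ^ 2 + N.gam (ht sd) (ht sd) (x, s)) ∂N.mu s := by
  have hW : A ⊆ W := fun x hx => (hs hx).2
  have e1 : ∫ x in A, f x ∂N.mu s = ∫ x, f x ∂N.mu s :=
    setIntegral_eq_integral_of_ae_compl_eq_zero ((Hu.ae_sl hN s).mono fun x hx hxA =>
      by_contra fun h0 => hxA (h1 x hx h0))
  have e2 : ∫ y in pr '' A, f y ∂S.mu t = ∫ y, f y ∂S.mu t :=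
    setIntegral_eq_integral_of_ae_compl_eq_zero ((Hu.ae_sl hS t).mono fun y hy hyA =>
      by_contra fun h0 => hyA (h2 y hy h0))
  have csd := h.ssd.continuousOn.mono hW
  have i1 : IntegrableOn f A (N.mu s) := intg_bdd hA hfin hf.cont.continuousOn fun x _ => hf.b0 x
  have i2 : IntegrableOn (fun x => Jac S t pr sd N (x, s) * f (pr x)) A (N.mu s) :=
    intg_bdd hA hfin (((h.cont_Jac hS hN s).mono hs).mul
      (hf.cont.comp_continuousOn (h.spr.continuousOn.mono hW))) (C := 3 * M) fun x hx => by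
        rw [abs_mul, abs_of_nonneg (Jac_nonneg _)]
        exact mul_le_mul (h.Jac_le hS hN (p := (x, s)) (hs hx).1 (hs hx).2 hκ (hA2 x hx) (hd x hx))
          (hf.b0 _) (abs_nonneg _) (by norm_num)
  have i3 : IntegrableOn (fun x => sd x * S.fv f (pr x, t)) A (N.mu s) :=
    intg_bdd hA hfin (csd.mul ((h.cont_pull (cont_fv hS hf)).mono hW))
      (C := 1 * (M * (1 + 2 * κ))) fun x hx => by
        rw [abs_mul]
        exact mul_le_mul (hd1 x hx) (abs_fv_le hS (h.mem x (hW hx)) hκ (hA2 x hx) hf)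
          (abs_nonneg _) (by norm_num)
  have i4 : IntegrableOn (fun x => sd x ^ 2 + N.gam (ht sd) (ht sd) (x, s)) A (N.mu s) :=
    intg_bdd hA hfin ((csd.pow 2).add ((h.cont_gam hS hN s).mono hs)) (C := 2) fun x hx => by
      have a1 := (sq_le_one_iff_abs_le_one _).2 (hd1 x hx)
      have a2 := h.gam_ht_le hS hN (p := (x, s)) (hs hx).1 (hs hx).2
      have a3 := Mv.gam_self_nonneg (F := N) (ht sd) (x, s)
      rw [abs_of_nonneg (by positivity)]; linarith
  rw [← e1, ← e2, h.int_J hS hN hA hs hi, ← integral_sub i1 i2,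
    ← integral_sub (f := fun x => f x - Jac S t pr sd N (x, s) * f (pr x)) (i1.sub i2) i3,
    ← integral_const_mul, ← Real.norm_eq_abs]
  refine norm_integral_le_of_norm_le (i4.const_mul _) ((ae_restrict_iff' hA).2
    (Eventually.of_forall fun x hx => ?_))
  exact h.pair_pt hS hN (p := (x, s)) (hs hx).1 (hs hx).2 hκ (hA2 x hx) (hd x hx) hf

end Tub

end Crest.Agent.N250.Tb

end
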