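import Crest.Agent.N250.Tb.Defs
import Crest.Agent.N250.Re.Pt

/-!
# Row 250, tube calculus (helper80): the signed distance restricted to another surface
-/

set_option autoImplicit false
open MeasureTheory Set Filter Topology Function
open scoped ContDiff InnerProductSpace
open Crest.GeometryTopology.MCF

noncomputable section

namespace Crest.Agent.N250.Tb

/-- the height `v = sd ∘ fst` -/
def ht (sd : E → ℝ) (q : ST) : ℝ := sd q.1

/-- `⟨n_N, n_S ∘ pr⟩` -/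
def cs (S : Mv) (t : ℝ) (pr : E → E) (N : Mv) (q : ST) : ℝ := ⟪N.n q, S.n (pr q.1, t)⟫_ℝ

/-- `⟨x, ∇ f⟩` -/
def xD (N : Mv) (f : ST → ℝ) (q : ST) : ℝ := ∑ a, q.1 a * N.D a f q

/-- the Hessian of the signed distance, `A ∘ D pr` -/
def hs (S : Mv) (t : ℝ) (pr : E → E) (x : E) : E →L[ℝ] E := (sh S (pr x, t)).comp (fderiv ℝ pr x)

/-- the quadratic error in the height equation -/
def err (S : Mv) (t : ℝ) (pr : E → E) (sd : E → ℝ) (N : Mv) (q : ST) : ℝ :=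
  sd q.1 ^ 2 * ∑ a, sh S (pr q.1, t) (sh S (pr q.1, t) (hs S t pr q.1 (ee a))) a -
    ⟪hs S t pr q.1 (N.n q), N.n q⟫_ℝ

theorem PL_coord (N : Mv) (p : ST) (v : E) (a : Fin 3) : ⟪v, N.PL p (ee a)⟫_ℝ = N.PL p v a := by
  rw [← inner_PL, inner_ee]

theorem tr_PL (N : Mv) (p : ST) (B : E →L[ℝ] E) :
    ∑ a, B (N.PL p (ee a)) a = ∑ a, B (ee a) a - ⟪B (N.n p), N.n p⟫_ℝ := by
  have e : B (N.n p) = ∑ a, N.n p a • B (ee a) := by
    conv_lhs => rw [eq_sum_ee (N.n p)]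
    simp only [map_sum, map_smul]
  simp only [Mv.PL, map_sub, map_smul, inner_ee, PiLp.sub_apply, PiLp.smul_apply, smul_eq_mul,
    Finset.sum_sub_distrib, inner_eq_sum (B _), mul_comm]

theorem abs_coord_le (v : E) (a : Fin 3) : |v a| ≤ ‖v‖ := by
  simpa using PiLp.norm_apply_le v a

theorem norm_ee (a : Fin 3) : ‖ee a‖ = 1 := by simp [ee]

namespace Tub

variable {S N : Mv} {t : ℝ} {W : Set E} {pr : E → E} {sd : E → ℝ} {x : E} {p w : ST}

section Amb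

variable (h : Tub S t W pr sd) (hS : S.Reg) (hx : x ∈ W)
include h hS hx

theorem hs_eq (v : E) : hs S t pr x v =
    sh S (pr x, t) v - sd x • sh S (pr x, t) (hs S t pr x v) := by
  have := congrArg (sh S (pr x, t)) (h.Dpr_eq hS hx v)
  rw [map_add, map_smul, sh_PL hS (h.mem x hx)] at this
  exact eq_sub_of_add_eq this

theorem tr_hs : ∑ a, hs S t pr x (ee a) a = S.H (pr x, t) - sd x * S.A2 (pr x, t) +
    sd x ^ 2 * ∑ a, sh S (pr x, t) (sh S (pr x, t) (hs S t pr x (ee a))) a := by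
  rw [H_eq hS (h.mem x hx), A2_eq hS (h.mem x hx), Finset.mul_sum, Finset.mul_sum,
    ← Finset.sum_sub_distrib, ← Finset.sum_add_distrib]
  refine Finset.sum_congr rfl fun a _ => ?_
  conv_lhs => rw [h.hs_eq hS hx, h.hs_eq hS hx]
  simp only [map_sub, map_smul, PiLp.sub_apply, PiLp.smul_apply, smul_eq_mul]
  ring

theorem PL_hs (v : E) : S.PL (pr x, t) (hs S t pr x v) = hs S t pr x v :=
  Mv.PL_of_perp (n_sh hS (h.mem x hx) _)

theorem hs_symm (v u : E) : ⟪hs S t pr x v, u⟫_ℝ = ⟪v, hs S t pr x u⟫_ℝ := by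
  have hp := h.mem x hx
  have e : ∀ v u, ⟪hs S t pr x v, u⟫_ℝ = ⟪hs S t pr x v, fderiv ℝ pr x u⟫_ℝ +
      sd x * ⟪hs S t pr x v, hs S t pr x u⟫_ℝ := fun v u => by
    rw [← inner_smul_right, ← inner_add_right]
    change _ = ⟪_, fderiv ℝ pr x u + sd x • sh S (pr x, t) (fderiv ℝ pr x u)⟫_ℝ
    rw [h.Dpr_eq hS hx, ← inner_PL, h.PL_hs hS hx]
  rw [e v u, real_inner_comm _ v, e u v, real_inner_comm (hs S t pr x v) (hs S t pr x u)]
  congr 1
  exact (sh_symm hS hp _ _).trans (real_inner_comm _ _)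

theorem norm_hs {κ : ℝ} (hκ : 0 ≤ κ) (hA : S.A2 (pr x, t) ≤ κ ^ 2) (hd : |sd x| * κ ≤ 1 / 2)
    (v : E) : ‖hs S t pr x v‖ ≤ 2 * κ * ‖S.PL (pr x, t) v‖ := by
  refine (norm_sh_le hS (h.mem x hx) hκ hA (fderiv ℝ pr x v)).trans ?_
  have := mul_le_mul_of_nonneg_left (h.norm_Dpr hS hx hκ hA hd v) hκ
  linarith

theorem inner_x : ⟪x, S.n (pr x, t)⟫_ℝ = S.xn 0 (pr x, t) + sd x := by
  have := congrArg (fun y => ⟪y, S.n (pr x, t)⟫_ℝ) (h.dec x hx)
  simpa only [inner_add_left, inner_smul_left, hS.inner_n (h.mem x hx), conj_trivial, mul_one,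
    Mv.xn, sub_zero] using this

end Amb

variable (h : Tub S t W pr sd) (hS : S.Reg) (hN : N.Reg) (hp : p ∈ N.M) (hW : p.1 ∈ W)
include h hW

theorem evW : ∀ᶠ q in 𝓝 p, q.1 ∈ W := continuous_fst.continuousAt.eventually (h.op.mem_nhds hW)

theorem ht_at : ContDiffAt ℝ ∞ (ht sd) p := (h.sd_at hW).comp p contDiffAt_fst

include hS

theorem nu_at : ContDiffAt ℝ ∞ (fun q : ST => S.n (pr q.1, t)) p :=
  ((h.sm_comp hS.sm_n).contDiffAt (h.op.mem_nhds hW)).comp p contDiffAt_fst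

theorem hasHt : HasFDerivAt (ht sd)
    ((innerSL ℝ (S.n (pr p.1, t))).comp (ContinuousLinearMap.fst ℝ E ℝ)) p :=
  HasFDerivAt.comp p (f := Prod.fst) (h.fderiv_sd hS hW ▸ h.hasSd hW) hasFDerivAt_fst

theorem hasNu' : HasFDerivAt (fun q : ST => S.n (pr q.1, t))
    ((hs S t pr p.1).comp (ContinuousLinearMap.fst ℝ E ℝ)) p :=
  HasFDerivAt.comp p (f := Prod.fst) (h.hasNu hS hW) hasFDerivAt_fst

include hN hp

theorem cs_at : ContDiffWithinAt ℝ ∞ (cs S t pr N) N.M p :=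
  (hN.sm_n p hp).inner ℝ (h.nu_at hS hW).contDiffWithinAt

theorem cs_sq_le : cs S t pr N p ^ 2 ≤ 1 := by
  have := abs_real_inner_le_norm (N.n p) (S.n (pr p.1, t))
  rw [hN.norm_n hp, hS.norm_n (h.mem _ hW), mul_one] at this
  exact (sq_le_one_iff_abs_le_one _).2 this

theorem td_ht (hw : N.Tg p w) : N.td (ht sd) p w = ⟪S.n (pr p.1, t), w.1⟫_ℝ :=
  hN.td_eq hp (h.hasHt hS hW).hasFDerivWithinAt hw

theorem D_ht (a : Fin 3) : N.D a (ht sd) p = N.PL p (S.n (pr p.1, t)) a := by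
  rw [Mv.D_apply, h.td_ht hS hN hp hW (hN.tg_PL hp _), PL_coord]

theorem D_ht' (a : Fin 3) : N.D a (ht sd) p = S.nu a (pr p.1, t) - cs S t pr N p * N.nu a p :=
  h.D_ht hS hN hp hW a

/-- `|∇ v|² = 1 - ⟨n, ν⟩²` -/
theorem gam_ht : N.gam (ht sd) (ht sd) p = 1 - cs S t pr N p ^ 2 := by
  simp only [Mv.gam_apply, h.D_ht hS hN hp hW]
  rw [← inner_eq_sum, real_inner_self_eq_norm_sq, norm_PL_sq hN hp, hS.norm_n (h.mem _ hW), one_pow]
  rfl

theorem gam_ht_le : N.gam (ht sd) (ht sd) p ≤ 1 := by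
  rw [h.gam_ht hS hN hp hW]; nlinarith [sq_nonneg (cs S t pr N p)]

theorem Dt_ht : N.Dt (ht sd) p = N.V p * cs S t pr N p := by
  rw [Mv.Dt, h.td_ht hS hN hp hW (hN.tg_vel hp), inner_smul_right, real_inner_comm]; rfl

theorem xD_ht : xD N (ht sd) p =
    S.xn 0 (pr p.1, t) + ht sd p - cs S t pr N p * N.xn 0 p := by
  simp only [xD, h.D_ht hS hN hp hW]
  rw [← inner_eq_sum, Mv.PL, inner_sub_right, inner_smul_right, h.inner_x hS hW]
  simp only [Mv.xn, sub_zero, cs, ht]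

theorem DD_ht (a b : Fin 3) : N.D a (N.D b (ht sd)) p = hs S t pr p.1 (N.PL p (ee a)) b -
    (cs S t pr N p * N.A a b p + N.D a (cs S t pr N) p * N.nu b p) := by
  have e : N.D b (ht sd) =ᶠ[𝓝[N.M] p]
      fun q => S.n (pr q.1, t) b - (cs S t pr N * N.nu b) q := by
    filter_upwards [nhdsWithin_le_nhds (h.evW hW), self_mem_nhdsWithin] with q h1 h2
      using h.D_ht' hS hN h2 h1 b
  have d1 := ((EuclideanSpace.proj (𝕜 := ℝ) b).hasFDerivAt.comp p
    (h.hasNu' hS hW)).hasFDerivWithinAt (s := N.M)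
  have c1 := (h.cs_at hS hN hp hW).differentiableWithinAt (by simp)
  have c2 := (hN.sm_nu b).diffW hp
  rw [Mv.D_congr hp e, Mv.D_apply]
  refine (hN.td_eq hp (d1.sub (c1.mul c2).hasFDerivWithinAt) (hN.tg_PL hp _)).trans ?_
  exact congrArg₂ (· - ·) rfl (hN.td_mul hp c1 c2 (hN.tg_PL hp (ee a)))

theorem lap_ht : N.lap (ht sd) p = ∑ a, hs S t pr p.1 (ee a) a -
    ⟪hs S t pr p.1 (N.n p), N.n p⟫_ℝ - cs S t pr N p * N.H p := by
  have := hN.n_D hp (cs S t pr N)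
  simp only [Mv.lap_apply, h.DD_ht hS hN hp hW, Finset.sum_sub_distrib, Finset.sum_add_distrib,
    tr_PL, Mv.H_apply, Finset.mul_sum, mul_comm (N.D _ _ p), this, add_zero]

/-- the height equation -/
theorem eqn : N.lap (ht sd) p - xD N (ht sd) p / 2 + (S.A2 (pr p.1, t) + 1 / 2) * ht sd p =
    S.shr (pr p.1, t) - N.shr p * cs S t pr N p + err S t pr sd N p := by
  rw [h.lap_ht hS hN hp hW, h.tr_hs hS hW, h.xD_ht hS hN hp hW, err, Mv.shr, Mv.shr, ht]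
  ring

theorem err_le {κ : ℝ} (hκ : 0 ≤ κ) (hA : S.A2 (pr p.1, t) ≤ κ ^ 2)
    (hd : |ht sd p| * κ ≤ 1 / 2) :
    |err S t pr sd N p| ≤ 6 * κ ^ 3 * ht sd p ^ 2 + 2 * κ * N.gam (ht sd) (ht sd) p := by
  have hy := h.mem _ hW
  have h1 : ∀ a, |sh S (pr p.1, t) (sh S (pr p.1, t) (hs S t pr p.1 (ee a))) a| ≤ 2 * κ ^ 3 :=
    fun a => by
      refine (abs_coord_le _ a).trans ((norm_sh_le hS hy hκ hA _).trans ?_)
      have a1 := norm_sh_le hS hy hκ hA (hs S t pr p.1 (ee a))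
      have a2 := h.norm_hs hS hW hκ hA hd (ee a)
      have a3 := norm_PL_le hS hy (ee a)
      rw [norm_ee] at a3
      calc _ ≤ κ * (κ * (2 * κ * 1)) := by
            gcongr
            refine a1.trans ?_
            gcongr
            refine a2.trans ?_
            gcongr
        _ = _ := by ring
  have h2 : |∑ a, sh S (pr p.1, t) (sh S (pr p.1, t) (hs S t pr p.1 (ee a))) a| ≤ 6 * κ ^ 3 := by
    refine (Finset.abs_sum_le_sum_abs _ _).trans ((Finset.sum_le_sum fun a _ => h1 a).trans ?_)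
    simp only [Finset.sum_const, Finset.card_univ, Fintype.card_fin, nsmul_eq_mul]
    norm_num; linarith
  have h3 : |⟪hs S t pr p.1 (N.n p), N.n p⟫_ℝ| ≤ 2 * κ * N.gam (ht sd) (ht sd) p := by
    have e : ⟪hs S t pr p.1 (N.n p), N.n p⟫_ℝ =
        ⟪hs S t pr p.1 (N.n p), S.PL (pr p.1, t) (N.n p)⟫_ℝ := by
      rw [← inner_PL, h.PL_hs hS hW]
    have e2 : N.gam (ht sd) (ht sd) p = ‖S.PL (pr p.1, t) (N.n p)‖ ^ 2 := by
      rw [h.gam_ht hS hN hp hW, norm_PL_sq hS hy, hN.norm_n hp, one_pow, real_inner_comm]; rfl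
    rw [e, e2]
    refine (abs_real_inner_le_norm _ _).trans ?_
    have := mul_le_mul_of_nonneg_right (h.norm_hs hS hW hκ hA hd (N.n p))
      (norm_nonneg (S.PL (pr p.1, t) (N.n p)))
    linarith
  rw [err]
  refine (abs_sub _ _).trans (add_le_add ?_ h3)
  rw [abs_mul, abs_of_nonneg (sq_nonneg _), mul_comm]
  exact mul_le_mul_of_nonneg_right h2 (sq_nonneg _)

/-- leaf P -/
theorem key {κ : ℝ} (hκ : 0 ≤ κ) (hA : S.A2 (pr p.1, t) ≤ κ ^ 2) (hd : |ht sd p| * κ ≤ 1 / 2) :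
    |N.lap (ht sd) p - xD N (ht sd) p / 2 + (S.A2 (pr p.1, t) + 1 / 2) * ht sd p -
      (S.shr (pr p.1, t) - N.shr p * cs S t pr N p)| ≤
      6 * κ ^ 3 * ht sd p ^ 2 + 2 * κ * N.gam (ht sd) (ht sd) p := by
  rw [h.eqn hS hN hp hW, add_sub_cancel_left]
  exact h.err_le hS hN hp hW hκ hA hd

/-- the height along a rescaled flow -/
theorem box_ht (hV : N.V p = -N.shr p) : N.box (ht sd) p + xD N (ht sd) p / 2 =
    (S.A2 (pr p.1, t) + 1 / 2) * ht sd p - S.shr (pr p.1, t) - err S t pr sd N p := by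
  have := h.eqn hS hN hp hW
  rw [Mv.box_apply, h.Dt_ht hS hN hp hW, hV]
  linarith

/-! ### functions of the height -/

variable {ψ : ℝ → ℝ}

theorem td_psi {d : ℝ} (hψ : HasDerivAt ψ d (ht sd p)) (hw : N.Tg p w) :
    N.td (fun q => ψ (ht sd q)) p w = d * N.td (ht sd) p w :=
  hN.td_comp1 hp (h.hasHt hS hW).differentiableAt.differentiableWithinAt hψ hw

theorem D_ht_at (a : Fin 3) : ContDiffWithinAt ℝ ∞ (N.D a (ht sd)) N.M p := by
  refine ContDiffWithinAt.congr_of_eventuallyEq_of_mem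
    (f := fun q => S.n (pr q.1, t) a - cs S t pr N q * N.nu a q) ?_ ?_ hp
  · exact ((EuclideanSpace.proj (𝕜 := ℝ) a).contDiff.contDiffAt.comp p
      (h.nu_at hS hW)).contDiffWithinAt.sub ((h.cs_at hS hN hp hW).mul (hN.sm_nu a p hp))
  · filter_upwards [nhdsWithin_le_nhds (h.evW hW), self_mem_nhdsWithin] with q h1 h2
      using h.D_ht' hS hN h2 h1 a

theorem lap_psi (hψ : ContDiffAt ℝ 2 ψ (ht sd p)) :
    N.lap (fun q => ψ (ht sd q)) p = deriv ψ (ht sd p) * N.lap (ht sd) p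
      + deriv (deriv ψ) (ht sd p) * N.gam (ht sd) (ht sd) p := by
  have h1 : ∀ᶠ s in 𝓝 (ht sd p), DifferentiableAt ℝ ψ s :=
    (hψ.eventually (by simp)).mono fun s hs => hs.differentiableAt (by simp)
  have h2 : DifferentiableAt ℝ (deriv ψ) (ht sd p) :=
    (hψ.derivWithin (m := 1) (by norm_num)).differentiableAt (by simp)
  have h3 := (h.hasHt hS hW).differentiableAt
  simp only [Mv.lap_apply, Mv.gam_apply, Finset.mul_sum, ← Finset.sum_add_distrib]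
  refine Finset.sum_congr rfl fun a _ => ?_
  have e : (N.D a fun q => ψ (ht sd q)) =ᶠ[𝓝[N.M] p]
      (fun q => deriv ψ (ht sd q)) * N.D a (ht sd) := by
    filter_upwards [nhdsWithin_le_nhds (h3.continuousAt.eventually h1), self_mem_nhdsWithin,
      nhdsWithin_le_nhds (h.evW hW)] with q hq hM hq'
      using h.td_psi hS hN hM hq' hq.hasDerivAt (hN.tg_PL hM _)
  rw [Mv.D_congr hp e, Mv.D_apply, hN.td_mul (f := fun q => deriv ψ (ht sd q)) hp
    (h2.comp p h3).differentiableWithinAt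
    ((h.D_ht_at hS hN hp hW a).differentiableWithinAt (by simp)) (hN.tg_PL hp _),
    h.td_psi hS hN hp hW h2.hasDerivAt (hN.tg_PL hp _), ← Mv.D_apply, ← Mv.D_apply]
  ring

theorem box_psi (hψ : ContDiffAt ℝ 2 ψ (ht sd p)) :
    N.box (fun q => ψ (ht sd q)) p + xD N (fun q => ψ (ht sd q)) p / 2 =
      deriv ψ (ht sd p) * (N.box (ht sd) p + xD N (ht sd) p / 2)
      - deriv (deriv ψ) (ht sd p) * N.gam (ht sd) (ht sd) p := by
  have hd := (hψ.differentiableAt (by simp)).hasDerivAt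
  have e : xD N (fun q => ψ (ht sd q)) p = deriv ψ (ht sd p) * xD N (ht sd) p := by
    simp only [xD, Finset.mul_sum, Mv.D_apply, h.td_psi hS hN hp hW hd (hN.tg_PL hp _)]
    exact Finset.sum_congr rfl fun a _ => by ring
  rw [Mv.box_apply, Mv.box_apply, h.lap_psi hS hN hp hW hψ, e, Mv.Dt, Mv.Dt,
    h.td_psi hS hN hp hW hd (hN.tg_vel hp)]
  ring

/-- the subsolution inequality of leaf X1 -/
theorem box_sq (hV : N.V p = -N.shr p) {κ : ℝ} (hκ : 0 ≤ κ) (hA : S.A2 (pr p.1, t) ≤ κ ^ 2)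
    (hd : |ht sd p| * κ ≤ 1 / 2) :
    N.box (fun q => ht sd q ^ 2) p + xD N (fun q => ht sd q ^ 2) p / 2 ≤
      (8 * κ ^ 2 + 2) * ht sd p ^ 2 + S.shr (pr p.1, t) ^ 2 := by
  have d1 : deriv (fun s : ℝ => s ^ 2) = fun s => 2 * s := by funext s; simp
  have d2 : deriv (fun s : ℝ => 2 * s) (ht sd p) = 2 := by simp
  have e := h.box_psi hS hN hp hW (ψ := fun s => s ^ 2) (by fun_prop)
  rw [d1, d2, h.box_ht hS hN hp hW hV] at e
  rw [e]
  have h1 := h.err_le hS hN hp hW hκ hA hd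
  have h2 := Mv.gam_self_nonneg (F := N) (ht sd) p
  set v := ht sd p
  set g := N.gam (ht sd) (ht sd) p
  have h3 : -(v * err S t pr sd N p) ≤ |v| * (6 * κ ^ 3 * v ^ 2 + 2 * κ * g) := by
    refine (neg_le_abs _).trans ?_
    rw [abs_mul]; gcongr
  have h4 : |v| * (6 * κ ^ 3 * v ^ 2 + 2 * κ * g) ≤ 3 * κ ^ 2 * v ^ 2 + g := by
    have : |v| * (6 * κ ^ 3 * v ^ 2 + 2 * κ * g) = (|v| * κ) * (6 * κ ^ 2 * v ^ 2 + 2 * g) := by ring
    rw [this]
    have := mul_le_mul_of_nonneg_right hd (show 0 ≤ 6 * κ ^ 2 * v ^ 2 + 2 * g by positivity)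
    linarith
  have h5 : S.A2 (pr p.1, t) * v ^ 2 ≤ κ ^ 2 * v ^ 2 := by gcongr
  nlinarith [sq_nonneg (v + S.shr (pr p.1, t))]

end Tub

end Crest.Agent.N250.Tb

end
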