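import Crest.Agent.N250.Re.Basic

/-!
# Row 250, tube (helper50), part 1: nearest point, signed distance, the tube of a slice
-/

set_option autoImplicit false
open MeasureTheory Set Filter Topology Function
open scoped ContDiff InnerProductSpace
open Crest.GeometryTopology.MCF

noncomputable section

namespace Crest.Agent.N250.Tb

/-- a nearest point of the slice (unique on the tube) -/
def pr (S : Mv) (t : ℝ) (x : E) : E :=
  Classical.epsilon fun y => y ∈ S.sl t ∧ ∀ z ∈ S.sl t, dist x y ≤ dist x z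

/-- signed distance from the slice -/
def sd (S : Mv) (t : ℝ) (x : E) : ℝ := ⟪S.n (pr S t x, t), x - pr S t x⟫_ℝ

/-- the tube of radius `ρ` over the part of the slice in `U` -/
def tube (S : Mv) (t : ℝ) (U : Set E) (ρ : ℝ) : Set E :=
  {x | ∃ y ∈ S.sl t, y ∈ U ∧ ∃ s : ℝ, |s| < ρ ∧ x = y + s • S.n (y, t)}

variable {S : Mv} {t ρ s : ℝ} {x y z v : E} {U : Set E}

theorem norm_sub_smul_sq (w n : E) (hn : ‖n‖ = 1) (s : ℝ) :
    ‖w - s • n‖ ^ 2 = ‖w‖ ^ 2 - 2 * s * ⟪n, w⟫_ℝ + s ^ 2 := by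
  rw [norm_sub_sq_real, inner_smul_right, norm_smul, hn, real_inner_comm, Real.norm_eq_abs,
    mul_one, sq_abs]
  ring

/-- Federer's form of the reach condition -/
theorem fed (hn : ‖S.n (y, t)‖ = 1) (hρ : 0 < ρ) (h : S.Reach (y, t) ρ) (hz : z ∈ S.sl t) :
    2 * ρ * |⟪S.n (y, t), z - y⟫_ℝ| ≤ ‖z - y‖ ^ 2 := by
  obtain ⟨h1, h2⟩ := h z hz
  have e1 : dist z (y + ρ • S.n (y, t)) = ‖(z - y) - ρ • S.n (y, t)‖ := by
    rw [dist_eq_norm]; congr 1; abel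
  have e2 : dist z (y - ρ • S.n (y, t)) = ‖(z - y) - (-ρ) • S.n (y, t)‖ := by
    rw [dist_eq_norm, neg_smul]; congr 1; abel
  have a1 := pow_le_pow_left₀ hρ.le (h1.trans_eq e1) 2
  have a2 := pow_le_pow_left₀ hρ.le (h2.trans_eq e2) 2
  rw [norm_sub_smul_sq _ _ hn] at a1 a2
  rcases abs_cases ⟪S.n (y, t), z - y⟫_ℝ with h | h <;> rw [h.1] <;> nlinarith

theorem reach_of_fed (hn : ‖S.n (y, t)‖ = 1) (hρ : 0 < ρ)
    (h : ∀ z ∈ S.sl t, 2 * ρ * |⟪S.n (y, t), z - y⟫_ℝ| ≤ ‖z - y‖ ^ 2) : S.Reach (y, t) ρ := by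
  intro z hz
  have e1 : dist z (y + ρ • S.n (y, t)) = ‖(z - y) - ρ • S.n (y, t)‖ := by
    rw [dist_eq_norm]; congr 1; abel
  have e2 : dist z (y - ρ • S.n (y, t)) = ‖(z - y) - (-ρ) • S.n (y, t)‖ := by
    rw [dist_eq_norm, neg_smul]; congr 1; abel
  have h0 := h z hz
  have h1 := le_abs_self ⟪S.n (y, t), z - y⟫_ℝ
  have h2 := neg_abs_le ⟪S.n (y, t), z - y⟫_ℝ
  constructor
  · change ρ ≤ dist z (y + ρ • S.n (y, t))
    rw [e1]
    refine (pow_le_pow_iff_left₀ hρ.le (norm_nonneg _) two_ne_zero).1 ?_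
    rw [norm_sub_smul_sq _ _ hn]; nlinarith
  · change ρ ≤ dist z (y - ρ • S.n (y, t))
    rw [e2]
    refine (pow_le_pow_iff_left₀ hρ.le (norm_nonneg _) two_ne_zero).1 ?_
    rw [norm_sub_smul_sq _ _ hn]; nlinarith

/-- quantitative uniqueness of the nearest point -/
theorem near_sq (hn : ‖S.n (y, t)‖ = 1) (hρ : 0 < ρ) (h : S.Reach (y, t) ρ) (hz : z ∈ S.sl t)
    (s : ℝ) : ρ * s ^ 2 + (ρ - |s|) * ‖z - y‖ ^ 2 ≤ ρ * dist (y + s • S.n (y, t)) z ^ 2 := by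
  have e1 : dist (y + s • S.n (y, t)) z = ‖(z - y) - s • S.n (y, t)‖ := by
    rw [dist_comm, dist_eq_norm]; congr 1; abel
  rw [e1, norm_sub_smul_sq _ _ hn]
  have h1 := mul_le_mul_of_nonneg_left (fed hn hρ h hz) (abs_nonneg s)
  have h2 : s * ⟪S.n (y, t), z - y⟫_ℝ ≤ |s| * |⟪S.n (y, t), z - y⟫_ℝ| := by
    rw [← abs_mul]; exact le_abs_self _
  nlinarith

theorem dist_foot (hn : ‖S.n (y, t)‖ = 1) (s : ℝ) : dist (y + s • S.n (y, t)) y = |s| := by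
  rw [dist_eq_norm, add_sub_cancel_left, norm_smul, hn, mul_one, Real.norm_eq_abs]

theorem near_le (hn : ‖S.n (y, t)‖ = 1) (h : S.Reach (y, t) ρ) (hs : |s| < ρ) (hz : z ∈ S.sl t) :
    |s| ≤ dist (y + s • S.n (y, t)) z := by
  have hρ := (abs_nonneg s).trans_lt hs
  have h1 := near_sq hn hρ h hz s
  have h2 := mul_nonneg (sub_pos.2 hs).le (sq_nonneg ‖z - y‖)
  refine (pow_le_pow_iff_left₀ (abs_nonneg s) dist_nonneg two_ne_zero).1 ?_
  rw [sq_abs]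
  nlinarith

theorem near_eq (hn : ‖S.n (y, t)‖ = 1) (h : S.Reach (y, t) ρ) (hs : |s| < ρ) (hz : z ∈ S.sl t)
    (hd : dist (y + s • S.n (y, t)) z ≤ |s|) : z = y := by
  have hρ := (abs_nonneg s).trans_lt hs
  have h1 := near_sq hn hρ h hz s
  have h2 := pow_le_pow_left₀ dist_nonneg hd 2
  rw [sq_abs] at h2
  have h3 : (ρ - |s|) * ‖z - y‖ ^ 2 ≤ 0 := by nlinarith
  have h4 : ‖z - y‖ ^ 2 ≤ 0 := by
    by_contra h4
    exact absurd (mul_pos (sub_pos.2 hs) (not_le.1 h4)) (not_lt.2 h3)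
  exact sub_eq_zero.1 (norm_eq_zero.1 (pow_eq_zero_iff two_ne_zero |>.1 (h4.antisymm (sq_nonneg _))))

theorem pr_eq (hS : S.Reg) (hy : y ∈ S.sl t) (h : S.Reach (y, t) ρ) (hs : |s| < ρ) :
    pr S t (y + s • S.n (y, t)) = y := by
  have hn := hS.norm_n (p := (y, t)) hy
  have h1 := Classical.epsilon_spec (p := fun w => w ∈ S.sl t ∧ ∀ z ∈ S.sl t,
    dist (y + s • S.n (y, t)) w ≤ dist (y + s • S.n (y, t)) z)
    ⟨y, hy, fun z hz => by rw [dist_foot hn]; exact near_le hn h hs hz⟩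
  exact near_eq hn h hs h1.1 ((h1.2 y hy).trans_eq (dist_foot hn s))

theorem sd_eq (hS : S.Reg) (hy : y ∈ S.sl t) (h : S.Reach (y, t) ρ) (hs : |s| < ρ) :
    sd S t (y + s • S.n (y, t)) = s := by
  rw [sd, pr_eq hS hy h hs, add_sub_cancel_left, inner_smul_right, hS.inner_n (p := (y, t)) hy,
    mul_one]

/-- a curve in the slice with a prescribed tangent -/
theorem exists_curve (hS : S.Reg) (hy : y ∈ S.sl t) (hv : ⟪S.n (y, t), v⟫_ℝ = 0) :
    ∃ c : ℝ → E, c 0 = y ∧ HasDerivAt c v 0 ∧ ∀ᶠ τ in 𝓝 0, c τ ∈ S.sl t := by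
  obtain ⟨W, π, hr⟩ := hS.exists_retr (p := (y, t)) hy
  have d := ((hr.sm.contDiffAt (hr.isOpen.mem_nhds hr.mem)).differentiableAt (by simp)).hasFDerivAt
  have l : HasDerivAt (fun τ : ℝ => ((y + τ • v, t) : ST)) (v, 0) 0 := by
    simpa using (((hasDerivAt_id (0 : ℝ)).smul_const v).const_add y).prodMk (hasDerivAt_const 0 t)
  have d2 := HasFDerivAt.comp_hasDerivAt_of_eq 0 d l (by simp)
  rw [hr.der (v, 0) (by simp [Mv.Tg, hv])] at d2
  refine ⟨fun τ => (π (y + τ • v, t)).1, ?_, d2.fst, ?_⟩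
  · simp [hr.fix _ hr.mem hy]
  · have : ∀ᶠ τ in 𝓝 (0 : ℝ), ((y + τ • v, t) : ST) ∈ W :=
      l.continuousAt.preimage_mem_nhds (by simpa using hr.isOpen.mem_nhds hr.mem)
    filter_upwards [this] with τ hτ
    have h1 := hr.maps hτ
    have h2 : (π (y + τ • v, t)).2 = t := hr.time _ hτ
    change ((π (y + τ • v, t)).1, t) ∈ S.M
    have h3 : (((π (y + τ • v, t)).1, t) : ST) = π (y + τ • v, t) := Prod.ext rfl h2.symm
    rw [h3]; exact h1

/-- first order condition at a nearest point -/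
theorem perp_of_near (hS : S.Reg) (hy : y ∈ S.sl t)
    (h : ∀ᶠ z in 𝓝 y, z ∈ S.sl t → dist x y ≤ dist x z) :
    x = y + ⟪S.n (y, t), x - y⟫_ℝ • S.n (y, t) := by
  have hv : ⟪S.n (y, t), S.PL (y, t) (x - y)⟫_ℝ = 0 := by
    simpa [Mv.Tg] using hS.tg_PL (p := (y, t)) hy (x - y)
  obtain ⟨c, c0, c1, c2⟩ := exists_curve hS hy hv
  have d := (c1.const_sub x).norm_sq
  have m : IsLocalMin (fun τ => ‖x - c τ‖ ^ 2) 0 := by
    have h' : ∀ᶠ τ in 𝓝 0, c τ ∈ S.sl t → dist x y ≤ dist x (c τ) :=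
      c1.continuousAt.tendsto.eventually (by rw [c0]; exact h)
    filter_upwards [h', c2] with τ a b
    rw [c0, ← dist_eq_norm, ← dist_eq_norm]
    exact pow_le_pow_left₀ dist_nonneg (a b) 2
  have h0 := m.hasDerivAt_eq_zero d
  rw [c0, inner_neg_right] at h0
  have h1 : ⟪S.PL (y, t) (x - y), S.PL (y, t) (x - y)⟫_ℝ = 0 := by
    conv_lhs => rw [Mv.PL, inner_sub_left, inner_smul_left, ← Mv.PL, hv]
    simp only [mul_zero, sub_zero]; linarith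
  have h2 := inner_self_eq_zero.1 h1
  rw [Mv.PL, sub_eq_zero] at h2
  rw [← h2]; abel

/-- reach near `y` bounds the derivative of any ambient extension of the normal -/
theorem curv_le (hS : S.Reg) (hρ : 0 < ρ) (hy : y ∈ S.sl t) {N : E → E} {L : E →L[ℝ] E}
    (hN : HasFDerivAt N L y)
    (h : ∀ᶠ z in 𝓝 y, z ∈ S.sl t → N z = S.n (z, t) ∧ S.Reach (z, t) ρ)
    (hv : ⟪S.n (y, t), v⟫_ℝ = 0) : ρ * |⟪L v, v⟫_ℝ| ≤ ‖v‖ ^ 2 := by
  obtain ⟨c, c0, c1, c2⟩ := exists_curve hS hy hv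
  have d := HasFDerivAt.comp_hasDerivAt_of_eq 0 hN c1 c0.symm
  have t1 := hasDerivAt_iff_tendsto_slope.1 c1
  have t2 := hasDerivAt_iff_tendsto_slope.1 d
  refine le_of_tendsto_of_tendsto ((t2.inner t1).abs.const_mul ρ) (t1.norm.pow 2) ?_
  have h' : ∀ᶠ τ in 𝓝 0, c τ ∈ S.sl t → N (c τ) = S.n (c τ, t) ∧ S.Reach (c τ, t) ρ :=
    c1.continuousAt.tendsto.eventually (by rw [c0]; exact h)
  have h0 := h.self_of_nhds hy
  filter_upwards [nhdsWithin_le_nhds h', nhdsWithin_le_nhds c2] with τ a b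
  have f1 := fed (hS.norm_n (p := (y, t)) hy) hρ h0.2 b
  have f2 := fed (hS.norm_n (p := (c τ, t)) b) hρ (a b).2 hy
  rw [← neg_sub (c τ), inner_neg_right, abs_neg, norm_neg] at f2
  have f3 := abs_sub ⟪S.n (c τ, t), c τ - y⟫_ℝ ⟪S.n (y, t), c τ - y⟫_ℝ
  simp only [slope, vsub_eq_sub, comp_apply, c0, (a b).1, h0.1, inner_smul_left, inner_smul_right,
    norm_smul, conj_trivial, abs_mul, Real.norm_eq_abs, inner_sub_left, mul_pow]
  have f4 : ρ * |⟪S.n (c τ, t), c τ - y⟫_ℝ - ⟪S.n (y, t), c τ - y⟫_ℝ| ≤ ‖c τ - y‖ ^ 2 := by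
    nlinarith
  nlinarith [mul_le_mul_of_nonneg_left f4 (sq_nonneg |(τ - 0)⁻¹|)]

end Crest.Agent.N250.Tb

end
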