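import Crest.Agent.N250.Tb.Surj
import Crest.Agent.N250.Tb.J
import Crest.Agent.N250.T.Reach
import Crest.Agent.N250.FV.Hu0
import Crest.Agent.N250.MP.Max

/-!
# Row 250, tube (helper50): transplanting functions from `N` to a nearby static surface `S`
along the foot point map of `N`
-/

set_option autoImplicit false
open MeasureTheory Set Filter Topology Function
open scoped ContDiff InnerProductSpace
open Crest.GeometryTopology.MCF

noncomputable section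

namespace Crest.Agent.N250.Tb

variable {S N : Mv} {t R ε ρ δ : ℝ} {W : Set E} {π : E → E} {d : E → ℝ} {x y : E} {p : ST}
  {u : ST → ℝ}

/-- the piece `S ∩ {‖y‖ ≤ R + 1}` -/
def pc (S : Mv) (R : ℝ) : Set E := S.sl 0 ∩ Metric.closedBall 0 (R + 1)

/-- the foot point map `π` of `N` is an almost isometry from `pc S R` onto a set containing
`N ∩ {‖x‖ ≤ R}` -/
structure Tp (S N : Mv) (t R ε : ℝ) (W : Set E) (π : E → E) (d : E → ℝ) : Prop where
  tub : Tub N t W π d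
  sub : pc S R ⊆ W
  inj : InjOn π (pc S R)
  onto : ∀ x ∈ N.sl t, ‖x‖ ≤ R → x ∈ π '' pc S R
  near : ∀ y ∈ pc S R, ‖π y - y‖ ≤ ε
  jac : ∀ y ∈ pc S R, |Jac N t π d S (y, 0) - 1| ≤ ε
  der : ∀ y ∈ pc S R, ∀ v, ‖fderiv ℝ π y v‖ ≤ (1 + ε) * ‖v‖

theorem Tp.mono (h : Tp S N t R ε W π d) {ε' : ℝ} (he : ε ≤ ε') : Tp S N t R ε' W π d :=
  ⟨h.tub, h.sub, h.inj, h.onto, fun y hy => (h.near y hy).trans he,
    fun y hy => (h.jac y hy).trans he, fun y hy v => (h.der y hy v).trans (by gcongr)⟩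

theorem Tub.norm_Dpr' (h : Tub N t W π d) (hN : N.Reg) (hy : y ∈ W) {κ : ℝ} (hκ : 0 ≤ κ)
    (hA : N.A2 (π y, t) ≤ κ ^ 2) (hd : |d y| * κ ≤ 1 / 2) (v : E) :
    ‖fderiv ℝ π y v‖ ≤ (1 + 2 * (|d y| * κ)) * ‖v‖ := by
  have h1 := eq_sub_of_add_eq (h.Dpr_eq hN hy v)
  have h2 := norm_sh_le hN (h.mem y hy) hκ hA (fderiv ℝ π y v)
  have h4 := norm_PL_le hN (h.mem y hy) v
  have h5 := (h.norm_Dpr hN hy hκ hA hd v).trans (mul_le_mul_of_nonneg_left h4 zero_le_two)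
  have h3 : ‖fderiv ℝ π y v‖ ≤ ‖v‖ + |d y| * (κ * (2 * ‖v‖)) := by
    conv_lhs => rw [h1]
    refine (norm_sub_le _ _).trans ?_
    rw [norm_smul, Real.norm_eq_abs]
    gcongr
    exact h2.trans (by gcongr)
  linarith

theorem Tub.jac_near (h : Tub N t W π d) (hN : N.Reg) (hS : S.Reg) (hp : p ∈ S.M) (hy : p.1 ∈ W)
    {κ a : ℝ} (hκ : 0 ≤ κ) (hA : N.A2 (π p.1, t) ≤ κ ^ 2) (hd : |d p.1| * κ ≤ 1 / 4)
    (ha : 1 - cs N t π S p ^ 2 ≤ a) : |Jac N t π d S p - 1| ≤ 2 * a + 4 * (|d p.1| * κ) := by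
  have hm := h.mem _ hy
  have c1 := h.cs_sq_le hN hS hp hy
  have c2 : |cs N t π S p| ≤ 1 := (sq_le_one_iff_abs_le_one _).1 c1
  have c3 : 1 - a ≤ |cs N t π S p| := by
    nlinarith [sq_abs (cs N t π S p), abs_nonneg (cs N t π S p)]
  have hH : |N.H (π p.1, t)| ≤ 3 / 2 * κ :=
    abs_le_of_sq_le_sq (by nlinarith [H_sq_le hN hm, sq_nonneg κ]) (by positivity)
  have hK : |N.K (π p.1, t)| ≤ κ ^ 2 / 2 := (abs_K_le hN hm).trans (by linarith)
  have b0 : 0 ≤ |d p.1| * κ := by positivity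
  have e : |dt N t π d p.1 - 1| ≤ 2 * (|d p.1| * κ) := by
    rw [dt, add_assoc, add_sub_cancel_left]
    refine (abs_add_le _ _).trans ?_
    rw [abs_mul, abs_mul, abs_pow]
    nlinarith [mul_le_mul_of_nonneg_left hH (abs_nonneg (d p.1)),
      mul_le_mul_of_nonneg_left hK (sq_nonneg |d p.1|)]
  have e' := abs_le.1 e
  have p0 : 0 < dt N t π d p.1 := by linarith
  rw [Jac, abs_of_pos p0, div_sub_one p0.ne', abs_div, abs_of_pos p0, div_le_iff₀ p0, abs_le]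
  have a0 : 0 ≤ a := by linarith
  constructor <;> nlinarith

theorem exists_tp (hS : S.Reg) (hN : N.Reg) (hρ : ρ ≤ 1) (h0 : 0 < δ) (hδ : δ ≤ ρ / 100)
    (hRS : ∀ y ∈ S.sl 0, y ∈ Metric.ball (0 : E) (R + 2) → S.Reach (y, 0) ρ)
    (hCS : ∀ y ∈ closure (S.sl 0), y ∈ Metric.ball (0 : E) (R + 2) → y ∈ S.sl 0)
    (hR : ∀ y ∈ N.sl t, y ∈ Metric.ball (0 : E) (R + 3) → N.Reach (y, t) ρ)
    (hC : ∀ y ∈ closure (N.sl t), y ∈ Metric.ball (0 : E) (R + 3) → y ∈ N.sl t)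
    (h1 : ∀ y ∈ S.sl 0, ‖y‖ < R + 2 → ∃ x ∈ N.sl t, dist y x ≤ δ)
    (h2 : ∀ x ∈ N.sl t, ‖x‖ < R + 2 → ∃ y ∈ S.sl 0, dist x y ≤ δ) :
    Tp S N t R (58 * δ / ρ) (tube N t (Metric.ball 0 (R + 3)) ρ) (pr N t) (sd N t) ∧
      ∀ y ∈ pc S R, ‖pr N t y - y‖ ≤ δ := by
  have hρ0 : 0 < ρ := by linarith
  have hT := tub hN hR Metric.isOpen_ball
  have hs : 2 * √(δ * ρ) ≤ 1 / 5 := by
    have : √(δ * ρ) ≤ 1 / 10 := Real.sqrt_le_iff.2 ⟨by norm_num, by nlinarith⟩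
    linarith
  have hB : ∀ (y : E) (r r' : ℝ), ‖y‖ + r < r' → Metric.closedBall y r ⊆ Metric.ball 0 r' :=
    fun y r r' h => Metric.closedBall_subset_ball' (by rw [dist_zero_right]; linarith)
  have T : ∀ w ∈ S.sl 0, w ∈ Metric.ball (0 : E) (R + 2) →
      w ∈ tube N t (Metric.ball 0 (R + 3)) ρ ∧ |sd N t w| ≤ δ := fun w a b => by
    rw [mem_ball_zero_iff] at b
    obtain ⟨x, hx, k⟩ := h1 w a b
    have m := mem_tube hN hC hx (by linarith : dist w x < ρ) (hB _ _ _ (by linarith))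
    exact ⟨m, (abs_sd_le hN hR m hx).trans k⟩
  obtain ⟨g1, g2⟩ := gr_tube hN hR hS Metric.isOpen_ball hRS hCS h0 hδ T
  have P1 : ∀ y ∈ pc S R, Metric.closedBall y (2 * √(δ * ρ)) ⊆ Metric.ball 0 (R + 2) :=
    fun y hy => hB _ _ _ (by linarith [mem_closedBall_zero_iff.1 hy.2])
  have P2 : ∀ y ∈ pc S R, y ∈ tube N t (Metric.ball 0 (R + 3)) ρ ∧ |sd N t y| ≤ δ := fun y hy =>
    T y hy.1 (P1 y hy (Metric.mem_closedBall_self (by positivity)))
  have P3 : ∀ y ∈ pc S R, N.A2 (pr N t y, t) ≤ (2 / ρ) ^ 2 := fun y hy =>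
    (reachAS_holds N hN _ (pr_mem hN hR (P2 y hy).1) ρ hρ0 (pr_reach hN hR (P2 y hy).1)).2.trans
      (by rw [div_pow]; gcongr; norm_num)
  have P4 : ∀ y ∈ pc S R, |sd N t y| * (2 / ρ) ≤ 2 * (δ / ρ) := fun y hy =>
    (mul_le_mul_of_nonneg_right (P2 y hy).2 (by positivity)).trans_eq (by ring)
  have P5 : ∀ y ∈ pc S R, ‖pr N t y - y‖ ≤ δ := fun y hy => by
    rw [← dist_eq_norm, dist_comm, dist_pr hN hR (P2 y hy).1]; exact (P2 y hy).2
  have q1 : δ / ρ ≤ 1 / 100 := by rw [div_le_iff₀ hρ0]; linarith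
  have q2 : δ ≤ δ / ρ := by rw [le_div_iff₀ hρ0]; nlinarith
  rw [mul_div_assoc] at *
  refine ⟨⟨hT, fun y hy => (P2 y hy).1, g2.mono fun y hy => And.intro hy.1 (P1 y hy), fun x hx hxR => ?_,
    fun y hy => (P5 y hy).trans (by linarith), fun y hy => ?_, fun y hy v => ?_⟩, P5⟩
  · obtain ⟨y, a, b, c, e⟩ := surj hN Metric.isOpen_ball hR hC hS Metric.isOpen_ball hRS hCS h0 hδ
      hx (hB _ _ _ (by linarith)) (hB _ _ _ (by linarith)) fun w hw hw' =>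
        h2 w hw (mem_ball_zero_iff.1 (hB _ _ _ (by linarith) hw'))
    refine ⟨y, ⟨a, mem_closedBall_zero_iff.2 ?_⟩, c⟩
    have := dist_pr hN hR b
    rw [c, dist_eq_norm] at this
    linarith [norm_le_insert' y x]
  · have := hT.jac_near hN hS (p := (y, 0)) hy.1 (P2 y hy).1 (by positivity) (P3 y hy)
      ((P4 y hy).trans (by linarith)) (g1 y hy.1 (P1 y hy))
    linarith [P4 y hy]
  · refine (hT.norm_Dpr' hN (P2 y hy).1 (by positivity) (P3 y hy)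
      ((P4 y hy).trans (by linarith)) v).trans (mul_le_mul_of_nonneg_right ?_ (norm_nonneg _))
    linarith [P4 y hy]

/-- the transplanted function -/
def tp (π : E → E) (t R : ℝ) (u : ST → ℝ) (p : ST) : ℝ := if ‖p.1‖ < R + 1 then u (π p.1, t) else 0

theorem D_zero (hN : N.Reg) (hu : N.Sm u) (h0 : ∀ x ∈ N.sl t, R < ‖x‖ → u (x, t) = 0)
    (hx : x ∈ N.sl t) (hR : R < ‖x‖) (a : Fin 3) : N.D a u (x, t) = 0 := by
  refine ((MP.maxS_holds N hN u hu (x, t) hx).1 ?_).1 a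
  have : ∀ᶠ q : ST in 𝓝 (x, t), R < ‖q.1‖ :=
    continuous_fst.norm.continuousAt.eventually (lt_mem_nhds hR)
  filter_upwards [self_mem_nhdsWithin, nhdsWithin_le_nhds this] with q a b
  obtain ⟨z, s⟩ := q
  obtain rfl : s = t := a.2
  rw [h0 x hx hR, h0 z a.1 b]

theorem isCompact_pc (hC : IsClosed S.M) : IsCompact (pc S R) :=
  (isCompact_closedBall _ _).inter_left (hC.preimage (Continuous.prodMk_left 0))

namespace Tp

variable (h : Tp S N t R ε W π d)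
include h

theorem mem (hy : y ∈ pc S R) : π y ∈ N.sl t := h.tub.mem y (h.sub hy)

theorem cont (hy : ContinuousOn u N.M) : ContinuousOn (fun y => u (π y, t)) (pc S R) :=
  hy.comp ((h.tub.spr.continuousOn.mono h.sub).prodMk continuousOn_const) fun _ k => h.mem k

/-- change of variables -/
theorem int (hS : S.Reg) (hN : N.Reg) (hC : IsClosed S.M) {g : E → ℝ}
    (hg : ∀ x ∈ N.sl t, R < ‖x‖ → g x = 0) :
    ∫ x, g x ∂N.mu t = ∫ y in pc S R, Jac N t π d S (y, 0) * g (π y) ∂S.mu 0 := by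
  have hm := (isCompact_pc (R := R) hC).measurableSet
  have hs : pc S R ⊆ S.sl 0 ∩ W := fun y hy => ⟨hy.1, h.sub hy⟩
  rw [← h.tub.int_J hN hS hm hs h.inj]
  refine (setIntegral_eq_integral_of_ae_compl_eq_zero ?_).symm
  exact (Hu.ae_sl hN t).mono fun x hx hn => hg x hx (not_le.1 fun k => hn (h.onto x hx k))

variable (hε : ε ≤ 1 / 2) (hst : S.Static) (h0 : ∀ x ∈ N.sl t, R < ‖x‖ → u (x, t) = 0)
include hε hst h0

theorem tp_zero (hp : p ∈ S.M) (hR : R + 1 / 2 < ‖p.1‖) : tp π t R u p = 0 := by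
  rw [tp]
  split_ifs with k
  · have m : p.1 ∈ pc S R := ⟨(hst.mem p.1 p.2).1 hp, mem_closedBall_zero_iff.2 k.le⟩
    refine h0 _ (h.mem m) ?_
    linarith [h.near _ m, norm_le_insert (π p.1) p.1]
  · rfl

theorem tp_ev (hR : R + 1 / 2 < ‖p.1‖) : tp π t R u =ᶠ[𝓝[S.M] p] fun _ => 0 := by
  have : ∀ᶠ q : ST in 𝓝 p, R + 1 / 2 < ‖q.1‖ :=
    continuous_fst.norm.continuousAt.eventually (lt_mem_nhds hR)
  filter_upwards [self_mem_nhdsWithin, nhdsWithin_le_nhds this] with q a b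
    using h.tp_zero hε hst h0 a b

omit h hε hst h0 in
theorem tp_ev' (hR : ‖p.1‖ < R + 1) : tp π t R u =ᶠ[𝓝 p] fun q => u (π q.1, t) := by
  have : ∀ᶠ q : ST in 𝓝 p, ‖q.1‖ < R + 1 :=
    continuous_fst.norm.continuousAt.eventually (gt_mem_nhds hR)
  exact this.mono fun q b => if_pos b

theorem tp_eq (hy : y ∈ pc S R) : tp π t R u (y, 0) = u (π y, t) := by
  by_cases k : ‖y‖ < R + 1
  · exact if_pos k
  · rw [h.tp_zero hε hst h0 (p := (y, 0)) hy.1 (by linarith [not_lt.1 k]), h0 _ (h.mem hy)]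
    linarith [h.near _ hy, norm_le_insert (π y) y, not_lt.1 k]

theorem tp_sm (hu : N.Sm u) : S.Sm (tp π t R u) := fun p hp => by
  by_cases k : ‖p.1‖ < R + 1
  · have m : p.1 ∈ pc S R := ⟨(hst.mem p.1 p.2).1 hp, mem_closedBall_zero_iff.2 k.le⟩
    exact ((((h.tub.sm_comp hu).contDiffAt (h.tub.op.mem_nhds (h.sub m))).comp p
      contDiffAt_fst).congr_of_eventuallyEq (tp_ev' k)).contDiffWithinAt
  · exact contDiffWithinAt_const.congr_of_eventuallyEq_of_mem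
      (h.tp_ev hε hst h0 (by linarith [not_lt.1 k])) hp

omit h hε hst h0 in
theorem tp_cs (hC : IsClosed S.M) : S.CS (tp π t R u) {0} := by
  refine ⟨pc S R ×ˢ {0}, (isCompact_pc hC).prod isCompact_singleton, ?_, ?_⟩
  · rintro ⟨y, s⟩ ⟨a, b⟩
    obtain rfl : s = 0 := b
    exact a.1
  · rintro ⟨y, s⟩ a b c
    obtain rfl : s = 0 := b
    exact if_neg fun k => c ⟨⟨a, mem_closedBall_zero_iff.2 k.le⟩, rfl⟩

theorem gam_zero (hS : S.Reg) (hp : p ∈ S.M) (hR : R + 1 / 2 < ‖p.1‖) :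
    S.gam (tp π t R u) (tp π t R u) p = 0 := by
  simp [Mv.gam_apply, Mv.D_congr hp (h.tp_ev hε hst h0 hR), hS.D_const hp]

theorem gam_le (hS : S.Reg) (hN : N.Reg) (hu : N.Sm u) (hy : y ∈ pc S R) :
    S.gam (tp π t R u) (tp π t R u) (y, 0) ≤ (1 + ε) ^ 2 * N.gam u u (π y, t) := by
  by_cases k : ‖y‖ < R + 1
  swap
  · rw [h.gam_zero hε hst h0 hS (p := (y, 0)) hy.1 (by linarith [not_lt.1 k])]
    exact mul_nonneg (sq_nonneg _) (Mv.gam_self_nonneg _ _)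
  have hW := h.sub hy
  set w : E := WithLp.toLp 2 fun b => N.D b u (π y, t) with hw
  have d1 := HasFDerivAt.comp ((y, 0) : ST) (f := Prod.fst)
    (h.tub.hasF hW (hu.diffW (h.mem hy))) hasFDerivAt_fst
  have e : ∀ a, S.D a (tp π t R u) (y, 0) = S.PL (y, 0) (fderiv ℝ π y w) a := fun a => by
    rw [Mv.D_apply, hS.td_eq hy.1 (d1.congr_of_eventuallyEq (tp_ev' k)).hasFDerivWithinAt
      (hS.tg_PL hy.1 _), ← PL_coord, h.tub.Dpr_symm hN hW, real_inner_comm, inner_eq_sum]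
    exact Mv.td_perp u (h.tub.n_Dpr hN hW _)
  have e2 : ‖w‖ ^ 2 = N.gam u u (π y, t) := by
    rw [EuclideanSpace.real_norm_sq_eq, Mv.gam_apply]; simp [hw, sq]
  rw [Mv.gam_apply (F := S)]
  simp only [e]
  rw [← inner_eq_sum, real_inner_self_eq_norm_sq, ← e2, ← mul_pow]
  exact pow_le_pow_left₀ (norm_nonneg _) ((norm_PL_le hS hy.1 _).trans (h.der y hy w)) 2

end Tp

end Crest.Agent.N250.Tb

end
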